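import Vale.Agent.P199.SeriesPoint

/-!
P199, minimisation: arcs. Along any first order solution there is a series point solving the rows, as soon as the row
differentials are onto and vanishing projections force vanishing coefficients.
-/

namespace Vale.Agent.P199

noncomputable section

/-- A point is a base change of itself. -/
def Pt.extRefl (P : Pt) : Ext P P where
  iK := RingHom.id _
  iD := RingHom.id _
  map_algebraMap _ := rfl
  m := 1
  mon _ := 1
  comm a _ := by simp
  mon_one := ⟨0, rfl⟩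
  indep bs hb := by
    simpa [Function.comp_def] using hb.comp Prod.fst fun x y h => Prod.ext h (Subsingleton.elim _ _)
  finrank_eq := (mul_one _).symm
  xy_eq _ := rfl
  c_eq _ := rfl

/-- A Laurent point over `P` is a step. -/
theorem step_of_laurData {P : Pt} (T : LaurData P) : Step P T.pt :=
  ⟨P, ⟨P.extRefl⟩, ⟨T.laur⟩⟩

namespace Rows

variable {L : Listing} {n : ℕ} {P : Pt}

/-- Vanishing projections of the coefficients up to an order force vanishing at that order. -/
def Deletes (r : Rows L n P) : Prop :=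
  ∀ (X : ℕ → Bool → P.D) (Cs : ℕ → ℕ → P.K), X 0 = P.xy → Cs 0 = P.c →
    (∀ m i, 0 < m → L.b n ≤ i → Cs m i = 0) → ∀ m,
    (∀ j : Fin n, ∀ k ≤ m,
      r.projF j (PowerSeries.coeff k (Poly.ev (SeriesPoint.ser X Cs) (L.eqn j))) = 0) →
    ∀ j : Fin n, PowerSeries.coeff m (Poly.ev (SeriesPoint.ser X Cs) (L.eqn j)) = 0

end Rows

namespace Minimise

open SeriesPoint

variable {L : Listing} {n : ℕ} (P : Pt)

/-- The coefficients of the generators of a sequence of directions. -/
def arcX (v : ℕ → P.Dir (L.b n)) (m : ℕ) : Bool → P.D := if m = 0 then P.xy else (v m).1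

/-- The coefficients of the symbols of a sequence of directions. -/
def arcC (v : ℕ → P.Dir (L.b n)) (m : ℕ) (i : ℕ) : P.K :=
  if m = 0 then P.c i else if h : i < L.b n then (v m).2 ⟨i, h⟩ else 0

variable {P}

theorem cf_arc_zero (v : ℕ → P.Dir (L.b n)) :
    Poly.cf 0 (ser (arcX P v) (arcC P v)) = P.val :=
  cf_ser_zero (arcX P v) (arcC P v) (if_pos rfl) (funext fun _ => if_pos rfl)

theorem cf_arc (v : ℕ → P.Dir (L.b n)) {m : ℕ} (hm : m ≠ 0) :
    Poly.cf m (ser (arcX P v) (arcC P v)) = P.dirVal (v m) := by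
  rw [cf_ser]
  funext z
  cases z with
  | inl a => simp [arcX, hm, Pt.dirVal]
  | inr i => by_cases h : i < L.b n <;> simp [arcC, hm, Pt.dirVal, h]

/-- A partial sequence, completed by zero. -/
def pad {m : ℕ} (prev : Fin m → P.Dir (L.b n)) (k : ℕ) : P.Dir (L.b n) :=
  if h : k < m then prev ⟨k, h⟩ else 0

theorem cut_arc (v : ℕ → P.Dir (L.b n)) {m : ℕ} (hm : m ≠ 0) :
    Poly.cut m (ser (arcX P v) (arcC P v)) =
      ser (arcX P (pad fun i : Fin m => v i)) (arcC P (pad fun i : Fin m => v i)) := by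
  funext z
  refine PowerSeries.ext fun k => ?_
  rw [Poly.cut, PowerSeries.coeff_mk]
  cases z with
  | inl a =>
    by_cases hk : k < m
    · simp [ser, arcX, pad, hk]
    · have h0 : k ≠ 0 := by omega
      simp [ser, arcX, pad, hk, h0]
  | inr i =>
    by_cases hk : k < m
    · simp [ser, arcC, pad, hk]
    · have h0 : k ≠ 0 := by omega
      by_cases hi : i < L.b n <;> simp [ser, arcC, pad, hk, h0, hi]

/-- Along every first order solution there is an arc of solutions. -/
theorem exists_arc {r : Rows L n P} (hs : P.Solves L n) (hsurj : Function.Surjective r.Jf)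
    (hdel : r.Deletes) (w : P.Dir (L.b n)) (hw : r.Jf w = 0) :
    ∃ (X : ℕ → Bool → P.D) (Cs : ℕ → ℕ → P.K) (hX : X 0 = P.xy) (hC : Cs 0 = P.c),
      X 1 = w.1 ∧ (∀ i : Fin (L.b n), Cs 1 i = w.2 i) ∧
      (∀ m i, 0 < m → L.b n ≤ i → Cs m i = 0) ∧ Poly.cf 1 (ser X Cs) = P.dirVal w ∧
      (data X Cs hX hC).pt.Solves L n := by
  let err : (m : ℕ) → (Fin m → P.Dir (L.b n)) → (j : Fin n) → ↥(r.W j ⊔ r.Pp j) := fun m prev j =>
    ⟨r.projF j (PowerSeries.coeff m
      (Poly.ev (ser (arcX P (pad prev)) (arcC P (pad prev))) (L.eqn j))), r.projF_mem j _⟩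
  obtain ⟨v, hv⟩ := Vale.P199.Valued.exists_seq
    (fun m prev x => (m = 1 → x = w) ∧ (2 ≤ m → r.Jf x = -err m prev)) fun m prev _ => by
      by_cases h1 : m = 1
      · exact ⟨w, fun _ => rfl, fun h => by omega⟩
      · obtain ⟨x, hx⟩ := hsurj (-err m prev)
        exact ⟨x, fun h => absurd h h1, fun _ => hx⟩
  have h1 : v 1 = w := (hv 1).1 rfl
  have hC0 : ∀ m i, 0 < m → L.b n ≤ i → arcC P v m i = 0 := fun m i hm hi => by
    simp [arcC, hm.ne', Nat.not_lt.2 hi]
  have hproj : ∀ (j : Fin n) (k : ℕ),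
      r.projF j (PowerSeries.coeff k (Poly.ev (ser (arcX P v) (arcC P v)) (L.eqn j))) = 0 := by
    intro j k
    match k with
    | 0 => rw [Poly.coeff_zero_ev, cf_arc_zero, hs j j.2, map_zero]
    | 1 =>
      rw [Poly.coeff_one_ev, cf_arc_zero, cf_arc v one_ne_zero, h1]
      exact congrArg Subtype.val (congrFun hw j)
    | k + 2 =>
      rw [(Poly.ev_sub_ev_cut _ (Nat.le_add_left 2 k) (L.eqn j)).2.1, cf_arc_zero,
        cf_arc v (Nat.succ_ne_zero _), cut_arc v (Nat.succ_ne_zero _), map_add]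
      have h := congrArg Subtype.val (congrFun ((hv (k + 2)).2 (Nat.le_add_left 2 k)) j)
      exact eq_neg_iff_add_eq_zero.1 h
  refine ⟨arcX P v, arcC P v, if_pos rfl, funext fun i => if_pos rfl, ?_, fun i => ?_, hC0, ?_,
    (solves_data _ _ _ _ L n).2 fun j hj m => ?_⟩
  · rw [arcX, if_neg one_ne_zero, h1]
  · rw [arcC, if_neg one_ne_zero, dif_pos i.2, h1]
  · rw [cf_arc v one_ne_zero, h1]
  · exact hdel _ _ (if_pos rfl) (funext fun i => if_pos rfl) hC0 m (fun j k _ => hproj j k) ⟨j, hj⟩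

end Minimise

end

end Vale.Agent.P199
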