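import Vale.Agent.P199.Minimise.Basic
import Vale.Agent.P199.Minimise.Arc
import Vale.Agent.P199.Field.Grow
import Vale.Agent.P199.Field.Tangent
import Vale.Agent.P199.Valued

/-!
P199, minimisation: what a minimiser gives. If the transcendence degree does not grow along arcs, the symbol parts of
tangents are the derivation images. If the number of identities does not drop along arcs, the identities alternate.
-/

namespace Vale.Agent.P199

open Module Vale.P199.Fld SeriesPoint

noncomputable section

namespace Poly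

open PowerSeries

variable {R : Type*} [Ring R]

/-- The differential along a series point, at orders zero and one. -/
theorem coeff_d1_ser (v : Var → PowerSeries R) (u : Var → R) (p : Poly) :
    coeff 0 (d1 v (fun z => C (u z)) p) = d1 (cf 0 v) u p ∧
      coeff 1 (d1 v (fun z => C (u z)) p) =
        d2 (cf 0 v) (cf 1 v) u p + d2 (cf 0 v) u (cf 1 v) p := by
  induction p using FreeAlgebra.induction with
  | grade0 n => simp [eq_intCast (algebraMap ℤ Poly), d1, d2, jet, ev, Matrix.intCast_apply]
  | grade1 z => simp [show FreeAlgebra.ι ℤ z = X z from rfl, coeff_C]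
  | mul a b ha hb =>
    constructor
    · simp only [d1_mul, map_add, PowerSeries.coeff_mul, Finset.Nat.antidiagonal_zero,
        Finset.sum_singleton, ha.1, hb.1, coeff_zero_ev]
    · simp only [d1_mul, d2_mul, map_add, PowerSeries.coeff_mul, Finset.Nat.sum_antidiagonal_succ,
        Finset.Nat.antidiagonal_zero, Finset.sum_singleton, zero_add, ha.1, ha.2, hb.1, hb.2,
        coeff_zero_ev, coeff_one_ev, mul_add, add_mul]
      abel
  | add a b ha hb =>
    simp only [d1_add, d2_add, map_add, ha.1, ha.2, hb.1, hb.2]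
    exact ⟨trivial, by abel⟩

end Poly

namespace Pt

variable (P : Pt)

/-- The second derivative is linear in each direction. -/
theorem d2_bilin (x u u' w : Var → P.D) (s : P.K) (p : Poly) :
    Poly.d2 x (u + u') w p = Poly.d2 x u w p + Poly.d2 x u' w p ∧
      Poly.d2 x w (u + u') p = Poly.d2 x w u p + Poly.d2 x w u' p ∧
      Poly.d2 x (s • u) w p = s • Poly.d2 x u w p ∧ Poly.d2 x w (s • u) p = s • Poly.d2 x w u p := by
  induction p using FreeAlgebra.induction with
  | grade0 n => simp [Poly.d2, Poly.jet, Poly.ev, Matrix.intCast_apply]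
  | grade1 z => simp [show FreeAlgebra.ι ℤ z = Poly.X z from rfl]
  | mul a b ha hb =>
    simp only [Poly.d2_mul, (P.d1_linear x u u' s _).1, (P.d1_linear x u u' s _).2, ha.1, ha.2.1,
      ha.2.2.1, ha.2.2.2, hb.1, hb.2.1, hb.2.2.1, hb.2.2.2, mul_add, add_mul, mul_smul_comm,
      smul_mul_assoc, smul_add]
    exact ⟨by abel, by abel, trivial, trivial⟩
  | add a b ha hb =>
    simp only [Poly.d2_add, ha.1, ha.2.1, ha.2.2.1, ha.2.2.2, hb.1, hb.2.1, hb.2.2.1, hb.2.2.2,
      smul_add]
    exact ⟨by abel, by abel, trivial, trivial⟩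

end Pt

namespace Rows

variable {L : Listing} {n : ℕ} {P : Pt} (r : Rows L n P)

/-- The projected coefficient `k` of the differential along a series point. -/
def Jser (v : Var → PowerSeries P.D) (k : ℕ) (b : Amb P) : (j : Fin n) → r.W j := fun j =>
  ⟨r.proj j (PowerSeries.coeff k
    (Poly.d1 v (fun z => PowerSeries.C (P.dirVal (N := L.b n) (b, 0) z)) (L.eqn j))), r.proj_mem j _⟩

theorem Jser_zero {v : Var → PowerSeries P.D} (hv : Poly.cf 0 v = P.val) (b : Amb P) :
    r.Jser v 0 b = r.J b := by
  funext j
  refine Subtype.ext ?_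
  show r.proj j _ = _
  rw [(Poly.coeff_d1_ser v _ _).1, hv]
  rfl

/-- On tangents the differential at order one stays in the range at order zero. -/
def OrderOne (v : Var → PowerSeries P.D) : Prop :=
  ∀ u ∈ r.T, r.Jser v 1 u ∈ LinearMap.range r.J

/-- A form whose identities extend along an arc through `u` vanishes at `u`. -/
theorem form_self_eq_zero {v : Var → PowerSeries P.D} (hv : Poly.cf 0 v = P.val) {u : Amb P}
    (hu : u ∈ r.T) (hv1 : Poly.cf 1 v = P.dirVal (N := L.b n) (u, 0)) (h : r.OrderOne v)
    {y : Dual P.K ((j : Fin n) → r.W j)} (hy : y ∈ r.Y) : r.form y u u = 0 := by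
  have : CharZero P.K := P.charZero
  have h2 : y (r.Jser v 1 u) = 0 := (Submodule.mem_dualAnnihilator y).1 hy _ (h u hu)
  have e : r.Jser v 1 u = (fun j => (⟨r.proj j (Poly.d2 P.val (P.dirVal (N := L.b n) (u, 0))
      (P.dirVal (N := L.b n) (u, 0)) (L.eqn j)), r.proj_mem j _⟩ : r.W j)) +
      fun j => (⟨r.proj j (Poly.d2 P.val (P.dirVal (N := L.b n) (u, 0))
      (P.dirVal (N := L.b n) (u, 0)) (L.eqn j)), r.proj_mem j _⟩ : r.W j) := by
    funext j
    refine Subtype.ext ?_
    show r.proj j _ = r.proj j _ + r.proj j _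
    rw [(Poly.coeff_d1_ser v _ _).2, hv, hv1, map_add]
  rw [e, map_add, ← two_mul] at h2
  exact (mul_eq_zero.1 h2).resolve_left two_ne_zero

end Rows

namespace Minimise

variable {L : Listing} {n : ℕ} {P : Pt}

section Coordinates

variable (r : Rows L n P) {ι κ : Type} [Fintype ι] [Fintype κ]
  (bV : Basis κ P.K (Rows.Amb P)) (bW : Basis ι P.K ((j : Fin n) → r.W j))

/-- The transpose of the projected differential along a series point. -/
def arcMatrix (v : Var → PowerSeries P.D) : Matrix κ ι (PowerSeries P.K) :=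
  Matrix.of fun a t => PowerSeries.mk fun k => bW.repr (r.Jser v k (bV a)) t

omit [Fintype κ] in
theorem coeffMap_arcMatrix (v : Var → PowerSeries P.D) (k : ℕ) (c : ι → P.K) (a : κ) :
    Vale.P199.Valued.coeffMap (arcMatrix r bV bW v) k c a =
      bW.constr P.K c (r.Jser v k (bV a)) := by
  rw [Basis.constr_apply_fintype]
  simp [Vale.P199.Valued.coeffMap, arcMatrix, Matrix.mulVec, dotProduct, Basis.equivFun_apply]

/-- The leading kernel is the space of identities. -/
theorem finrank_ker_coeffMap {v : Var → PowerSeries P.D} (hv : Poly.cf 0 v = P.val) :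
    finrank P.K (LinearMap.ker (Vale.P199.Valued.coeffMap (arcMatrix r bV bW v) 0)) = r.corank := by
  have e : (LinearMap.ker (Vale.P199.Valued.coeffMap (arcMatrix r bV bW v) 0)).map
      (bW.constr P.K : (ι → P.K) ≃ₗ[P.K] _).toLinearMap = r.Y := by
    ext y
    simp only [Submodule.mem_map, LinearMap.mem_ker, Rows.Y, Submodule.mem_dualAnnihilator,
      LinearMap.mem_range, forall_exists_index, forall_apply_eq_imp_iff]
    constructor
    · rintro ⟨c, hc, rfl⟩ b
      have h0 : (bW.constr P.K c).comp r.J = 0 := bV.ext fun a => by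
        have := congrFun hc a
        rw [coeffMap_arcMatrix, r.Jser_zero hv] at this
        simpa using this
      exact LinearMap.congr_fun h0 b
    · intro hy
      have hyc : (bW.constr P.K fun t => y (bW t)) = y :=
        bW.ext fun t => Basis.constr_basis _ _ _ t
      exact ⟨fun t => y (bW t), funext fun a => by
        rw [coeffMap_arcMatrix, r.Jser_zero hv, Pi.zero_apply, hyc, hy], hyc⟩
  rw [Rows.corank, ← e, LinearEquiv.finrank_map_eq]

/-- If the identities along the series point are as many as at the point, they extend to first order. -/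
theorem orderOne_of_corank {v : Var → PowerSeries P.D} (hv : Poly.cf 0 v = P.val)
    (h : r.corank ≤ finrank (LaurentSeries P.K)
      (LinearMap.ker (Vale.P199.Valued.bigMap (arcMatrix r bV bW v)))) : r.OrderOne v := by
  intro u hu
  rw [← Subspace.dualAnnihilator_dualCoannihilator_eq (W := LinearMap.range r.J),
    Submodule.mem_dualCoannihilator]
  intro y hy
  set M := arcMatrix r bV bW v
  have hle := Vale.P199.Valued.lead_ker_le M
  have heq : Vale.P199.Valued.lead (LinearMap.ker (Vale.P199.Valued.bigMap M)) =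
      LinearMap.ker (Vale.P199.Valued.coeffMap M 0) :=
    Submodule.eq_of_le_of_finrank_le (hle.trans inf_le_left) (by
      rw [finrank_ker_coeffMap r bV bW hv, Vale.P199.Valued.finrank_lead]
      exact h)
  have hyc : (bW.constr P.K fun t => y (bW t)) = y := bW.ext fun t => Basis.constr_basis _ _ _ t
  have hc : (fun t => y (bW t)) ∈ LinearMap.ker (Vale.P199.Valued.coeffMap M 0) := by
    refine LinearMap.mem_ker.2 (funext fun a => ?_)
    rw [coeffMap_arcMatrix, r.Jser_zero hv, Pi.zero_apply, hyc]
    exact (Submodule.mem_dualAnnihilator _).1 hy _ ⟨bV a, rfl⟩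
  rw [← heq] at hc
  obtain ⟨z, hz⟩ := (hle hc).2
  let J₁ : Rows.Amb P →ₗ[P.K] ((j : Fin n) → r.W j) :=
    { toFun := r.Jser v 1
      map_add' := fun b b' => by
        funext j
        refine Subtype.ext ?_
        show r.proj j _ = r.proj j _ + r.proj j _
        have e : P.dirVal (N := L.b n) (b + b', 0) =
            P.dirVal (N := L.b n) (b, 0) + P.dirVal (N := L.b n) (b', 0) := funext fun z => by
          rw [Pi.add_apply, ← P.dirVal_add, Prod.mk_add_mk, add_zero]
        rw [(Poly.coeff_d1_ser v _ _).2, (Poly.coeff_d1_ser v _ _).2, (Poly.coeff_d1_ser v _ _).2,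
          hv, e, (P.d2_bilin _ _ _ _ 1 _).1, (P.d2_bilin _ _ _ _ 1 _).2.1, ← map_add]
        congr 1
        abel
      map_smul' := fun c b => by
        funext j
        refine Subtype.ext ?_
        show r.proj j _ = c • r.proj j _
        have e : P.dirVal (N := L.b n) (c • b, 0) = c • P.dirVal (N := L.b n) (b, 0) :=
          funext fun z => by rw [Pi.smul_apply, ← P.dirVal_smul, Prod.smul_mk, smul_zero]
        rw [(Poly.coeff_d1_ser v _ _).2, (Poly.coeff_d1_ser v _ _).2, hv, e,
          (P.d2_bilin _ _ 0 _ c _).2.2.1, (P.d2_bilin _ _ 0 _ c _).2.2.2, ← smul_add, map_smul] }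
  have h0 : (bW.constr P.K fun t => y (bW t)).comp J₁ = (bW.constr P.K z).comp r.J :=
    bV.ext fun a => by
      have h1 := congrFun hz a
      rw [coeffMap_arcMatrix, coeffMap_arcMatrix, r.Jser_zero hv] at h1
      exact h1.symm
  have := LinearMap.congr_fun h0 u
  rw [hyc, LinearMap.comp_apply, LinearMap.comp_apply, show r.J u = 0 from hu, map_zero] at this
  exact this

end Coordinates

variable {r : Rows L n P}

/-- If the differential at order one stays in the range along every arc, the identities alternate. -/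
theorem alternating_of_orderOne (hs : P.Solves L n) (ht : r.Tight) (hdel : r.Deletes)
    (hrig : ∀ (X : ℕ → Bool → P.D) (Cs : ℕ → ℕ → P.K) (hX : X 0 = P.xy) (hC : Cs 0 = P.c),
      (∀ m i, 0 < m → L.b n ≤ i → Cs m i = 0) → (data X Cs hX hC).pt.Solves L n →
      r.OrderOne (ser X Cs)) :
    r.Alternating := by
  intro y hy u hu
  have hw : r.Jf (u, 0) = 0 := funext fun j => Subtype.ext (by
    show r.projF j (P.dEq L (L.b n) j (u, 0)) = 0
    rw [ht.fixed u hu j, map_zero])
  obtain ⟨X, Cs, hX, hC, -, -, hC0, h1, hQ⟩ := exists_arc hs ht.surj hdel (u, 0) hw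
  exact r.form_self_eq_zero (cf_ser_zero X Cs hX hC) hu h1 (hrig X Cs hX hC hC0 hQ) hy

/-- Where arcs keep all identities, the forms of the identities alternate. -/
theorem alternating_of_rigid (hs : P.Solves L n) (ht : r.Tight) (hdel : r.Deletes)
    (hrig : ∀ (X : ℕ → Bool → P.D) (Cs : ℕ → ℕ → P.K) (hX : X 0 = P.xy) (hC : Cs 0 = P.c),
      (∀ m i, 0 < m → L.b n ≤ i → Cs m i = 0) → (data X Cs hX hC).pt.Solves L n →
      r.corank ≤ finrank (LaurentSeries P.K) (LinearMap.ker (Vale.P199.Valued.bigMap
        (arcMatrix r (Module.finBasis P.K (Rows.Amb P))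
          (Module.finBasis P.K ((j : Fin n) → r.W j)) (ser X Cs))))) :
    r.Alternating :=
  alternating_of_orderOne hs ht hdel fun X Cs hX hC h0 hQ =>
    orderOne_of_corank r _ _ (cf_ser_zero X Cs hX hC) (hrig X Cs hX hC h0 hQ)

/-- Where the transcendence degree does not grow along arcs, first order motions of the symbols are derivation images. -/
theorem snd_mem_derImage_of_rigid (hs : P.Solves L n) (hsurj : Function.Surjective r.Jf)
    (hdel : r.Deletes)
    (hrig : ∀ T : LaurData P, T.pt.Solves L n → trdegSym (L.b n) T.pt ≤ trdegSym (L.b n) P)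
    {w : P.Dir (L.b n)} (hw : r.Jf w = 0) :
    w.2 ∈ derImage ℚ fun i : Fin (L.b n) => P.c i := by
  obtain ⟨X, Cs, hX, hC, -, hC1, -, -, hQ⟩ := exists_arc hs hsurj hdel w hw
  by_contra hc
  obtain ⟨s, hsi, hlt⟩ := exists_larger_independent (data X Cs hX hC).laur (L.b n) (fun hm => hc (by
    convert hm using 1
    funext i
    rw [← hC1 i]
    show _ = (HahnSeries.ofPowerSeries ℤ P.K (PowerSeries.mk fun m => Cs m i)).coeff ((1 : ℕ) : ℤ)
    rw [HahnSeries.ofPowerSeries_apply_coeff, PowerSeries.coeff_mk]))
  exact absurd ((card_le_trdegSym hsi).trans (hrig _ hQ)) (not_le.2 hlt)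

/-- With central derivations extended, the derivation images are exactly these motions. -/
theorem tangents_eq_derImage_of_rigid
    (hK : ∀ d : P.D, (∀ t, d * t = t * d) → ∃ a : P.K, algebraMap P.K P.D a = d)
    (hg : ∀ j < n, L.Guarded j) (hs : P.Solves L n) (hsurj : Function.Surjective r.Jf)
    (hdel : r.Deletes)
    (hrig : ∀ T : LaurData P, T.pt.Solves L n → trdegSym (L.b n) T.pt ≤ trdegSym (L.b n) P) :
    (LinearMap.ker r.Jf).map (LinearMap.snd P.K (Bool → P.D) (Fin (L.b n) → P.K)) =
      derImage ℚ fun i : Fin (L.b n) => P.c i := by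
  refine le_antisymm ?_ (derImage_le_tangents L P hK r hg hs)
  rintro v ⟨w, hw, rfl⟩
  exact snd_mem_derImage_of_rigid hs hsurj hdel hrig hw

end Minimise

end

end Vale.Agent.P199
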