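import Vale.Agent.P199.Minimise.Degree
import Vale.Agent.P199.Field.LaurResidue

/-!
P199, minimisation: a place over the residue of a step over Laurent series. In an algebraically closed extension of the
Laurent field there is a valuation ring over the integral series; the roots of the element of a row lie in it and their
residues are roots at the residue point.
-/

namespace Vale.Agent.P199

open Polynomial

noncomputable section

variable {P₁ Q : Pt}

/-- The series of the residue centre inside an extension of the Laurent field. -/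
def Laur.scalar (T : Laur P₁ Q) (Ω : Type) [Field Ω] [Algebra Q.K Ω] : PowerSeries P₁.K →+* Ω :=
  (algebraMap Q.K Ω).comp (T.eK.toRingHom.comp (HahnSeries.ofPowerSeries ℤ P₁.K))

/-- A valuation ring over the integral series, with an algebraically closed residue field. -/
structure Laur.Place (T : Laur P₁ Q) (Ω : Type) [Field Ω] [Algebra Q.K Ω] where
  /-- The ring. -/
  O : ValuationSubring Ω
  /-- The residue field. -/
  κ : Type
  [instF : Field κ]
  [instC : CharZero κ]
  [instA : IsAlgClosed κ]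
  [instAlg : Algebra P₁.K κ]
  /-- The residue map. -/
  φ : O →+* κ
  unit : ∀ a : O, φ a ≠ 0 → IsUnit a
  scalar_mem : ∀ z, T.scalar Ω z ∈ O
  scalar_res : ∀ z, φ ⟨T.scalar Ω z, scalar_mem z⟩ = algebraMap P₁.K κ (PowerSeries.constantCoeff z)

attribute [instance] Laur.Place.instF Laur.Place.instC Laur.Place.instA Laur.Place.instAlg

/-- There is a place. -/
theorem Laur.nonempty_place (T : Laur P₁ Q) (Ω : Type) [Field Ω] [Algebra Q.K Ω] :
    Nonempty (T.Place Ω) := by
  have hinj : Function.Injective (T.scalar Ω) :=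
    (algebraMap Q.K Ω).injective.comp (T.eK.injective.comp HahnSeries.ofPowerSeries_injective)
  set I : Ideal (T.scalar Ω).range :=
    Ideal.span {(⟨T.scalar Ω PowerSeries.X, PowerSeries.X, rfl⟩ : (T.scalar Ω).range)}
  have hI : I ≠ ⊤ := by
    rw [Ne, Ideal.span_singleton_eq_top]
    rintro ⟨u, hu⟩
    obtain ⟨z, hz⟩ := (u⁻¹ : (T.scalar Ω).rangeˣ).1.2
    have h : T.scalar Ω (PowerSeries.X * z) = T.scalar Ω 1 := by
      rw [map_mul, hz, map_one]
      exact (congrArg (fun a : (T.scalar Ω).range => (a * (u⁻¹ : (T.scalar Ω).rangeˣ).1 : (T.scalar Ω).range).1) hu.symm).trans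
        (congrArg Subtype.val (Units.mul_inv u))
    have h1 := congrArg PowerSeries.constantCoeff (hinj h)
    simp at h1
  obtain ⟨V, hle, hnu⟩ := Ideal.image_subset_nonunits_valuationSubring I hI
  have hmem : ∀ z, T.scalar Ω z ∈ V := fun z => hle ⟨z, rfl⟩
  let sV : PowerSeries P₁.K →+* V := (T.scalar Ω).codRestrict V hmem
  let res : V →+* IsLocalRing.ResidueField V := IsLocalRing.residue V
  let ψ : P₁.K →+* IsLocalRing.ResidueField V := res.comp (sV.comp PowerSeries.C)
  have : CharZero (IsLocalRing.ResidueField V) := charZero_of_injective_ringHom ψ.injective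
  let κ := AlgebraicClosure (IsLocalRing.ResidueField V)
  let ψ' : P₁.K →+* κ := (algebraMap (IsLocalRing.ResidueField V) κ).comp ψ
  have hX : res (sV PowerSeries.X) = 0 := by
    refine (IsLocalRing.residue_eq_zero_iff _).2 (ValuationSubring.coe_mem_nonunits_iff.1 (hnu ?_))
    exact ⟨⟨T.scalar Ω PowerSeries.X, PowerSeries.X, rfl⟩, Ideal.subset_span rfl, rfl⟩
  refine ⟨{ O := V, κ := κ, instAlg := ψ'.toAlgebra,
            φ := (algebraMap (IsLocalRing.ResidueField V) κ).comp res,
            unit := fun a ha => ?_, scalar_mem := hmem, scalar_res := fun z => ?_ }⟩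
  · by_contra hu
    refine ha ?_
    show algebraMap (IsLocalRing.ResidueField V) κ (res a) = 0
    rw [(IsLocalRing.residue_eq_zero_iff a).2 hu, map_zero]
  · show algebraMap (IsLocalRing.ResidueField V) κ (res (sV z)) =
      algebraMap (IsLocalRing.ResidueField V) κ (res (sV (PowerSeries.C (PowerSeries.constantCoeff z))))
    congr 1
    obtain ⟨z', hz'⟩ := PowerSeries.X_dvd_iff.2
      (show PowerSeries.constantCoeff (z - PowerSeries.C (PowerSeries.constantCoeff z)) = 0 by simp)
    conv_lhs => rw [eq_add_of_sub_eq hz', map_add, map_add, map_mul, map_mul, hX, zero_mul, zero_add]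

/-- Every integral series of the algebra satisfies a monic equation over the scalar series. -/
theorem exists_monic_series (P : Pt) (f : PowerSeries P.D) :
    ∃ p : Polynomial (PowerSeries P.K), p.Monic ∧
      p.eval₂ (PowerSeries.map (algebraMap P.K P.D)) f = 0 := by
  let ι' := PowerSeries.map (algebraMap P.K P.D)
  have hcomm : ∀ (z : PowerSeries P.K) (g : PowerSeries P.D), ι' z * g = g * ι' z := fun z g => by
    refine PowerSeries.ext fun m => ?_
    rw [PowerSeries.coeff_mul, PowerSeries.coeff_mul, ← Finset.Nat.sum_antidiagonal_swap]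
    refine Finset.sum_congr rfl fun x _ => ?_
    rw [Prod.fst_swap, Prod.snd_swap, PowerSeries.coeff_map]
    exact Algebra.commutes _ _
  let _ : Algebra (PowerSeries P.K) (PowerSeries P.D) := ι'.toAlgebra' hcomm
  let b := Module.finBasis P.K P.D
  let Φ : (Fin (Module.finrank P.K P.D) → PowerSeries P.K) →ₗ[PowerSeries P.K] PowerSeries P.D :=
    Fintype.linearCombination (PowerSeries P.K) fun i => PowerSeries.C (b i)
  have hΦ : Function.Surjective Φ := fun g => by
    refine ⟨fun i => PowerSeries.mk fun m => b.repr (PowerSeries.coeff m g) i,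
      PowerSeries.ext fun m => ?_⟩
    simp only [Φ, Fintype.linearCombination_apply, map_sum, Algebra.smul_def,
      show ∀ z : PowerSeries P.K, algebraMap (PowerSeries P.K) (PowerSeries P.D) z = ι' z from fun _ => rfl]
    conv_rhs => rw [← b.sum_repr (PowerSeries.coeff m g)]
    exact Finset.sum_congr rfl fun i _ => by
      rw [PowerSeries.coeff_mul_C, PowerSeries.coeff_map, PowerSeries.coeff_mk, Algebra.smul_def]
  have : Module.Finite (PowerSeries P.K) (PowerSeries P.D) := Module.Finite.of_surjective Φ hΦ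
  obtain ⟨p, hp, hp0⟩ := IsIntegral.of_finite (PowerSeries P.K) f
  exact ⟨p, hp, hp0⟩

/-- The scalar series inside the algebra. -/
theorem Laur.emb_map (T : Laur P₁ Q) (z : PowerSeries P₁.K) :
    T.emb (PowerSeries.map (algebraMap P₁.K P₁.D) z) =
      algebraMap Q.K Q.D (T.eK (HahnSeries.ofPowerSeries ℤ P₁.K z)) :=
  T.eD_scalar z

namespace Laur.Place

variable {T : Laur P₁ Q} {Ω : Type} [Field Ω] [Algebra Q.K Ω] (pl : T.Place Ω)

theorem mem_of_monic {x : Ω} {p : Polynomial (PowerSeries P₁.K)} (hp : p.Monic)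
    (h : p.eval₂ (T.scalar Ω) x = 0) : x ∈ pl.O := by
  let sO : PowerSeries P₁.K →+* pl.O := (T.scalar Ω).codRestrict pl.O pl.scalar_mem
  have hx : IsIntegral pl.O x := by
    refine ⟨p.map sO, hp.map _, ?_⟩
    rw [Polynomial.eval₂_map]
    exact h
  obtain ⟨y, hy⟩ := IsIntegrallyClosed.isIntegral_iff.1 hx
  exact hy ▸ y.2

/-- The roots of the element of a row are integral and their residues are roots at the residue. -/
theorem root_res (L : Listing) (j : ℕ) {μ : Ω} (hμ : aeval μ (minpoly Q.K (Q.q L j)) = 0) :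
    ∃ h : μ ∈ pl.O, aeval (pl.φ ⟨μ, h⟩) (minpoly P₁.K (P₁.q L j)) = 0 := by
  obtain ⟨f, hf, hf0⟩ := T.exists_ev (L.p j)
  let σ : PowerSeries P₁.K →+* Q.K := T.eK.toRingHom.comp (HahnSeries.ofPowerSeries ℤ P₁.K)
  have key : ∀ (p : Polynomial (PowerSeries P₁.K)) (e : PowerSeries P₁.D),
      T.emb (p.eval₂ (PowerSeries.map (algebraMap P₁.K P₁.D)) e) = aeval (T.emb e) (p.map σ) := by
    intro p e
    rw [Polynomial.hom_eval₂, aeval_def, Polynomial.eval₂_map]
    congr 1
    exact RingHom.ext fun z => T.emb_map z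
  have hroot : ∀ R : Polynomial Q.K, aeval (Q.q L j) R = 0 → aeval μ R = 0 := fun R hR => by
    obtain ⟨S, rfl⟩ := minpoly.dvd Q.K (Q.q L j) hR
    rw [map_mul, hμ, zero_mul]
  have hfq : T.emb f = Q.q L j := hf
  have hint : ∀ p : Polynomial (PowerSeries P₁.K),
      p.eval₂ (PowerSeries.map (algebraMap P₁.K P₁.D)) f = 0 → p.eval₂ (T.scalar Ω) μ = 0 := fun p h => by
    have h2 := hroot (p.map σ) (by rw [← hfq, ← key, h, map_zero])
    rw [aeval_def, Polynomial.eval₂_map] at h2
    exact h2
  obtain ⟨p, hp, hp0⟩ := exists_monic_series P₁ f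
  have hμO := pl.mem_of_monic hp (hint p hp0)
  refine ⟨hμO, ?_⟩
  -- the residue polynomial, applied to the series
  set g := minpoly P₁.K (P₁.q L j)
  let g' : Polynomial (PowerSeries P₁.K) := g.map PowerSeries.C
  have hcc : PowerSeries.constantCoeff (g'.eval₂ (PowerSeries.map (algebraMap P₁.K P₁.D)) f) = 0 := by
    rw [Polynomial.hom_eval₂, Polynomial.eval₂_map]
    refine Eq.trans ?_ (minpoly.aeval P₁.K (P₁.q L j))
    rw [aeval_def]
    congr 1
  obtain ⟨e, he⟩ := PowerSeries.X_dvd_iff.2 hcc
  obtain ⟨r, hr, hr0⟩ := exists_monic_series P₁ e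
  set t := σ PowerSeries.X
  have ht : t ≠ 0 := fun h => PowerSeries.X_ne_zero
    (HahnSeries.ofPowerSeries_injective ((T.eK.map_eq_zero_iff.1 h).trans (map_zero _).symm))
  have he' : T.emb e = aeval (Q.q L j) (C t⁻¹ * g'.map σ) := by
    rw [map_mul, aeval_C, ← hfq, ← key, he, map_mul, ← PowerSeries.map_X (algebraMap P₁.K P₁.D),
      T.emb_map, ← mul_assoc, ← map_mul]
    show _ = algebraMap Q.K Q.D (t⁻¹ * t) * _
    rw [inv_mul_cancel₀ ht, map_one, one_mul]
  have hR := hroot ((r.map σ).comp (C t⁻¹ * g'.map σ)) (by rw [aeval_comp, ← he', ← key, hr0, map_zero])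
  rw [aeval_comp, aeval_def, Polynomial.eval₂_map] at hR
  have hwO := pl.mem_of_monic hr hR
  set w : Ω := aeval μ (C t⁻¹ * g'.map σ) with hw
  have hgw : aeval μ (g'.map σ) = T.scalar Ω PowerSeries.X * w := by
    rw [hw, map_mul, aeval_C, ← mul_assoc]
    show _ = algebraMap Q.K Ω t * algebraMap Q.K Ω t⁻¹ * _
    rw [← map_mul, mul_inv_cancel₀ ht, map_one, one_mul]
  -- take residues
  let sO : PowerSeries P₁.K →+* pl.O := (T.scalar Ω).codRestrict pl.O pl.scalar_mem
  have hv : (g.eval₂ (sO.comp PowerSeries.C) ⟨μ, hμO⟩ : pl.O) = sO PowerSeries.X * ⟨w, hwO⟩ := by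
    refine Subtype.ext ?_
    show pl.O.subtype (g.eval₂ (sO.comp PowerSeries.C) ⟨μ, hμO⟩) = T.scalar Ω PowerSeries.X * w
    rw [Polynomial.hom_eval₂, ← hgw, aeval_def, Polynomial.eval₂_map, Polynomial.eval₂_map]
    rfl
  have h := congrArg pl.φ hv
  rw [Polynomial.hom_eval₂, map_mul] at h
  rw [aeval_def]
  refine Eq.trans ?_ (h.trans ?_)
  · congr 1
    refine RingHom.ext fun a => ?_
    show algebraMap P₁.K pl.κ a = pl.φ ⟨T.scalar Ω (PowerSeries.C a), pl.scalar_mem _⟩
    rw [pl.scalar_res, PowerSeries.constantCoeff_C]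
  · show pl.φ ⟨T.scalar Ω PowerSeries.X, pl.scalar_mem _⟩ * _ = 0
    rw [pl.scalar_res, PowerSeries.constantCoeff_X, map_zero, zero_mul]

end Laur.Place

end

end Vale.Agent.P199
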