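import Vale.Agent.P199.Minimise.Classes
import Vale.Agent.P199.Minimise.Place
import Vale.Agent.P199.Deletion.Partner

/-!
P199, minimisation: along a step that keeps the transcendence degree of the earlier symbols a moving element keeps moving
and its classes do not grow; if they keep their size, every related pair of residues lifts to related roots.
-/

namespace Vale.Agent.P199

open Vale.P199 Vale.P199.Deletion Vale.P199.Fld Polynomial

noncomputable section

namespace Minimise

section Residue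

variable {O κ : Type} [CommRing O] [IsDomain O] [Field κ] [Algebra ℚ O] [Algebra ℚ κ] (φ : O →ₐ[ℚ] κ)
  {ι : Type} {t : ι → O}

theorem res_comp_elim (μ : O) :
    (φ ∘ fun o : Option ι => o.elim μ t) = fun o : Option ι => o.elim (φ μ) fun i => φ (t i) := by
  funext o; cases o <;> rfl

/-- Related elements with equal independent residues are equal. -/
theorem eq_of_dep (hunit : ∀ a, φ a ≠ 0 → IsUnit a) {μ μ' : O}
    (hμ : AlgebraicIndependent ℚ fun o : Option ι => o.elim (φ μ) fun i => φ (t i))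
    (hdep : Dep ℚ t μ μ') (heq : φ μ' = φ μ) : μ' = μ := by
  have h := relation_lifts (J := Unit) φ hunit (t := fun o : Option ι => o.elim μ t)
    (by rwa [res_comp_elim]) (lam := fun _ => μ')
    (fun _ => by rw [range_elim]; exact hdep)
    (MvPolynomial.X (Sum.inr ()) - MvPolynomial.X (Sum.inl none)) (by simp [heq])
  simpa [sub_eq_zero] using h

/-- Related elements have related residues. -/
theorem dep_of_dep {μ μ' : O}
    (hμ : AlgebraicIndependent ℚ fun o : Option ι => o.elim (φ μ) fun i => φ (t i))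
    (hdep : Dep ℚ t μ μ') : Dep ℚ (fun i => φ (t i)) (φ μ) (φ μ') := by
  by_contra hn
  rw [not_dep_iff hμ] at hn
  have hμ' : AlgebraicIndependent ℚ fun o : Option ι => o.elim μ t :=
    algebraicIndependent_of_residue φ (by rwa [res_comp_elim])
  refine (not_dep_iff hμ').2 ?_ hdep
  refine algebraicIndependent_of_residue φ ?_
  convert hn using 1
  funext o
  rcases o with _ | (_ | i) <;> rfl

end Residue

/-- An injective homomorphism of rational algebras reflects being algebraic over generated algebras. -/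
theorem isAlgebraic_map' {A B : Type} [CommRing A] [CommRing B] [Algebra ℚ A] [Algebra ℚ B]
    (τ : A →ₐ[ℚ] B) (hτ : Function.Injective τ) (S : Set A) (a : A) :
    IsAlgebraic (Algebra.adjoin ℚ (τ '' S)) (τ a) ↔ IsAlgebraic (Algebra.adjoin ℚ S) a := by
  have hmap : (Algebra.adjoin ℚ S).map τ = Algebra.adjoin ℚ (τ '' S) := AlgHom.map_adjoin τ S
  let f : Algebra.adjoin ℚ S →+* Algebra.adjoin ℚ (τ '' S) :=
    (τ.toRingHom.comp (Algebra.adjoin ℚ S).val.toRingHom).codRestrict (Algebra.adjoin ℚ (τ '' S))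
      fun x => by
        rw [← hmap]
        exact ⟨x, x.2, rfl⟩
  have hf : Function.Surjective f := fun y => by
    have hy : (y : B) ∈ (Algebra.adjoin ℚ S).map τ := by rw [hmap]; exact y.2
    obtain ⟨x, hx, hxy⟩ := hy
    exact ⟨⟨x, hx⟩, Subtype.ext hxy⟩
  have hfi : Function.Injective f := fun x y h => Subtype.ext (hτ (congrArg Subtype.val h))
  exact ⟨fun h => h.of_ringHom_of_comp_eq f τ hf hτ (RingHom.ext fun _ => rfl),
    fun h => h.ringHom_of_comp_eq f τ hfi (RingHom.ext fun _ => rfl)⟩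

variable (L : Listing) {P P₁ Q : Pt}

section Ext

variable (E : Ext P P₁) (j : ℕ)

/-- The minimal polynomial is carried along a base change. -/
theorem minpoly_ext : minpoly P₁.K (P₁.q L j) = (minpoly P.K (P.q L j)).map E.iK := by
  have hqq : E.iD (P.q L j) = P₁.q L j := E.ev_val (L.p j)
  set g := minpoly P.K (P.q L j)
  have hm : g.Monic := minpoly.monic (Algebra.IsIntegral.isIntegral _)
  have h0 : aeval (P₁.q L j) (g.map E.iK) = 0 := by
    rw [← hqq, aeval_def, eval₂_map]
    have hcomp : (algebraMap P₁.K P₁.D).comp E.iK = E.iD.comp (algebraMap P.K P.D) :=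
      RingHom.ext fun a => (E.map_algebraMap a).symm
    rw [hcomp, ← hom_eval₂, ← aeval_def, minpoly.aeval, map_zero]
  refine (eq_of_monic_of_dvd_of_natDegree_le (minpoly.monic (Algebra.IsIntegral.isIntegral _))
    (hm.map _) (minpoly.dvd _ _ h0) ?_).symm
  rw [natDegree_map]
  refine degRow_le_of_indep (P := P₁) L (d := g.natDegree) ?_
  have h := E.linearIndependent_iD (linearIndependent_pow (K := P.K) (P.q L j))
  convert h using 2 with i
  rw [map_pow, hqq]

theorem depRoots_ext {Ω : Type} [Field Ω] [CharZero Ω] [Algebra P.K Ω] [Algebra P₁.K Ω]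
    (hc : ∀ a, algebraMap P₁.K Ω (E.iK a) = algebraMap P.K Ω a) (lam : Ω) :
    depRoots (symb L j P₁) (minpoly P₁.K (P₁.q L j)) lam =
      depRoots (symb L j P) (minpoly P.K (P.q L j)) lam := by
  have hroot : ∀ μ : Ω, μ ∈ (minpoly P₁.K (P₁.q L j)).rootSet Ω ↔ μ ∈ (minpoly P.K (P.q L j)).rootSet Ω := by
    intro μ
    rw [minpoly_ext L E j, mem_rootSet, mem_rootSet, aeval_def, eval₂_map,
      show (algebraMap P₁.K Ω).comp E.iK = algebraMap P.K Ω from RingHom.ext hc, ← aeval_def,
      ne_eq, Polynomial.map_eq_zero_iff E.iK.injective]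
  have hs : (fun i => algebraMap P₁.K Ω (symb L j P₁ i)) = fun i => algebraMap P.K Ω (symb L j P i) :=
    funext fun i => by simp [symb, E.c_eq, hc]
  ext μ
  simp only [depRoots, Set.mem_ofPred_eq]
  rw [hroot, hs]

include E in
/-- Classes keep their size along a base change. -/
theorem clsSize_ext : clsSize L j P₁ = clsSize L j P := by
  have : CharZero P₁.K := P₁.charZero
  let Ω := AlgebraicClosure P₁.K
  let _ : Algebra P.K Ω := ((algebraMap P₁.K Ω).comp E.iK).toAlgebra
  obtain ⟨lam, hlam⟩ := IsAlgClosed.exists_aeval_eq_zero Ω (minpoly P₁.K (P₁.q L j))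
    (degree_pos_of_irreducible (minpoly_irreducible L j P₁)).ne'
  have hlam' : aeval lam (minpoly P.K (P.q L j)) = 0 := by
    rw [minpoly_ext L E j, aeval_def, eval₂_map] at hlam
    exact hlam
  rw [← ncard_depRoots L j P₁ hlam, ← ncard_depRoots L j P hlam', depRoots_ext L E j (fun _ => rfl)]

include E in
/-- Moving is kept along a base change. -/
theorem moving_ext (h : Moving L j P) : Moving L j P₁ := by
  have : CharZero P₁.K := P₁.charZero
  let Ω := AlgebraicClosure P₁.K
  let _ : Algebra P.K Ω := ((algebraMap P₁.K Ω).comp E.iK).toAlgebra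
  obtain ⟨lam, hlam⟩ := IsAlgClosed.exists_aeval_eq_zero Ω (minpoly P₁.K (P₁.q L j))
    (degree_pos_of_irreducible (minpoly_irreducible L j P₁)).ne'
  refine ⟨lam, hlam, ?_⟩
  have hs : (fun i => algebraMap P₁.K Ω (symb L j P₁ i)) = fun i => algebraMap P.K Ω (symb L j P i) :=
    funext fun i => by simp [symb, E.c_eq]; rfl
  rw [show (fun i => algebraMap P₁.K (AlgebraicClosure P₁.K) (symb L j P₁ i)) = _ from hs]
  refine h.transcendental L ?_
  rw [minpoly_ext L E j, aeval_def, eval₂_map] at hlam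
  exact hlam

end Ext

section Laur

variable (T : Laur P₁ Q) {j : ℕ}

/-- What the arguments along a step over Laurent series share. -/
theorem laur_setup (htr : trdegSym (L.b j) Q = trdegSym (L.b j) P₁) (hmov : Moving L j P₁)
    {Ω : Type} [Field Ω] [CharZero Ω] [Algebra Q.K Ω] (pl : T.Place Ω) {μ : Ω}
    (hμ : aeval μ (minpoly Q.K (Q.q L j)) = 0) :
    (¬IsAlgebraic (Algebra.adjoin ℚ (Set.range fun i => algebraMap Q.K Ω (symb L j Q i))) μ) ∧
    ∀ h : μ ∈ pl.O, ∀ ν (h' : ν ∈ pl.O), aeval ν (minpoly Q.K (Q.q L j)) = 0 →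
      IsAlgebraic (Algebra.adjoin ℚ (insert μ (Set.range fun i => algebraMap Q.K Ω (symb L j Q i)))) ν →
        IsAlgebraic (Algebra.adjoin ℚ (insert ν (Set.range fun i => algebraMap Q.K Ω (symb L j Q i)))) μ ∧
        IsAlgebraic (Algebra.adjoin ℚ (insert (pl.φ ⟨μ, h⟩)
          (Set.range fun i => algebraMap P₁.K pl.κ (symb L j P₁ i)))) (pl.φ ⟨ν, h'⟩) ∧
        (pl.φ ⟨ν, h'⟩ = pl.φ ⟨μ, h⟩ → ν = μ) := by
  classical
  obtain ⟨hμO, hroot⟩ := pl.root_res L j hμ
  let sO : PowerSeries P₁.K →+* pl.O := (T.scalar Ω).codRestrict pl.O pl.scalar_mem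
  let _ : Algebra ℚ pl.O := (sO.comp (PowerSeries.C.comp (algebraMap ℚ P₁.K))).toAlgebra
  let φ : pl.O →ₐ[ℚ] pl.κ := RingHom.toRatAlgHom pl.φ
  let incl : pl.O →ₐ[ℚ] Ω := RingHom.toRatAlgHom pl.O.subtype
  have hincl : Function.Injective incl := Subtype.val_injective
  obtain ⟨s, hs, hi⟩ := exists_basis (L.b j) P₁
  let t : s → pl.O := fun i => sO (cser T (i : Fin (L.b j)))
  have hφt : (fun i => φ (t i)) = fun i : s => algebraMap P₁.K pl.κ (P₁.c (i : Fin (L.b j))) := funext fun i => by
    show pl.φ ⟨T.scalar Ω _, pl.scalar_mem _⟩ = _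
    rw [pl.scalar_res, constantCoeff_cser]
  have hit : ∀ i, incl (t i) = algebraMap Q.K Ω (Q.c (i : Fin (L.b j))) := fun i => by
    show algebraMap Q.K Ω (T.eK (cser T _ : LaurentSeries P₁.K)) = _
    rw [coe_cser]
  -- the residue of `μ` is independent of the basis
  have htκ : AlgebraicIndependent ℚ fun i => φ (t i) := by
    rw [hφt]
    exact hi.map' (f := RingHom.toRatAlgHom (algebraMap P₁.K pl.κ)) (algebraMap P₁.K pl.κ).injective
  have hgen : ∀ x (hx : x ∈ pl.O), aeval x (minpoly Q.K (Q.q L j)) = 0 →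
      (AlgebraicIndependent ℚ fun o : Option s => o.elim (φ ⟨x, hx⟩) fun i => φ (t i)) ∧
        AlgebraicIndependent ℚ fun o : Option s => o.elim x fun i => incl (t i) := by
    intro x hx hxr
    obtain ⟨_, hxres⟩ := pl.root_res L j hxr
    have hlam := hmov.transcendental L (lam := pl.φ ⟨x, hx⟩) hxres
    have h1 : AlgebraicIndependent ℚ fun o : Option s => o.elim (φ ⟨x, hx⟩) fun i => φ (t i) := by
      rw [AlgebraicIndependent.option_iff_transcendental htκ]
      intro halg
      refine hlam (IsAlgebraic.adjoin_of_forall_isAlgebraic (fun y hy => ?_) halg)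
      refine absurd ?_ hy.2
      obtain ⟨i, rfl⟩ := hy.1
      exact ⟨(i : Fin (L.b j)), (congrFun hφt i).symm⟩
    have h2 := (algebraicIndependent_of_residue φ (t := fun o : Option s => o.elim (⟨x, hx⟩ : pl.O) t)
      (by rwa [res_comp_elim])).map' (f := incl) hincl
    refine ⟨h1, ?_⟩
    convert! h2 using 1
    funext o; cases o <;> rfl
  obtain ⟨hμκ, hμ'⟩ := hgen μ hμO hμ
  -- the symbols are algebraic over the basis
  have hiQ : AlgebraicIndependent ℚ fun i : s => Q.c (i : Fin (L.b j)) := by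
    have h := (algebraicIndependent_of_residue φ (t := t) htκ).map' (f := incl) hincl
    rw [show (incl ∘ t) = fun i : s => algebraMap Q.K Ω (Q.c (i : Fin (L.b j))) from funext hit] at h
    exact AlgebraicIndependent.of_comp (RingHom.toRatAlgHom (algebraMap Q.K Ω)) h
  have halgc : ∀ x ∈ Set.range (fun i => algebraMap Q.K Ω (symb L j Q i)),
      IsAlgebraic (Algebra.adjoin ℚ (Set.range fun i => incl (t i))) x := by
    rintro _ ⟨i, rfl⟩
    have h := IntermediateField.isAlgebraic_adjoin_iff.1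
      (isAlgebraic_of_card_eq hiQ (hs.trans htr.symm) i)
    have h2 := (isAlgebraic_map (algebraMap Q.K Ω) _ _).2 h
    have hset : Set.range (fun i => incl (t i)) =
        algebraMap Q.K Ω '' ((fun k : Fin (L.b j) => Q.c k) '' (s : Set (Fin (L.b j)))) := by
      ext x
      simp [hit]
    rw [hset]
    exact h2
  refine ⟨fun halg => ?_, fun h ν h' hν hdep => ?_⟩
  · have h2 := IsAlgebraic.adjoin_of_forall_isAlgebraic (fun x hx => halgc x hx.1) halg
    exact (AlgebraicIndependent.option_iff_transcendental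
      ((algebraicIndependent_of_residue φ (t := t) htκ).map' (f := incl) hincl) μ).1 hμ' h2
  have hd1 : Dep ℚ (fun i => incl (t i)) μ ν := by
    refine IsAlgebraic.adjoin_of_forall_isAlgebraic (fun x hx => ?_) hdep
    rcases hx.1 with rfl | hx1
    · exact absurd (Set.mem_insert _ _) hx.2
    · have hle : Algebra.adjoin ℚ (Set.range fun i => incl (t i)) ≤
          Algebra.adjoin ℚ (insert μ (Set.range fun i => incl (t i))) :=
        Algebra.adjoin_mono (Set.subset_insert _ _)
      exact IsAlgebraic.adjoin_of_forall_isAlgebraic (fun y hy => absurd (Set.mem_insert_of_mem _ hy.1) hy.2)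
        (halgc x hx1)
  have hd : Dep ℚ t (⟨μ, h⟩ : pl.O) ⟨ν, h'⟩ := by
    refine (isAlgebraic_map' incl hincl _ _).1 ?_
    have hset : incl '' insert (⟨μ, h⟩ : pl.O) (Set.range t) = insert μ (Set.range fun i => incl (t i)) := by
      rw [Set.image_insert_eq, ← Set.range_comp]
      rfl
    rw [hset]
    exact hd1
  refine ⟨?_, ?_, fun heq => congrArg Subtype.val (eq_of_dep φ (fun a ha => pl.unit a ha) hμκ hd heq)⟩
  · refine IsAlgebraic.adjoin_of_forall_isAlgebraic (fun x hx => absurd ?_ hx.2)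
      (Dep.symm hμ' (hgen ν h' hν).2 hd1)
    rcases hx.1 with rfl | ⟨i, rfl⟩
    · exact Set.mem_insert _ _
    · exact Set.mem_insert_of_mem _ ⟨(i : Fin (L.b j)), (hit i).symm⟩
  refine IsAlgebraic.adjoin_of_forall_isAlgebraic (fun x hx => absurd ?_ hx.2) (dep_of_dep φ hμκ hd)
  rcases hx.1 with rfl | ⟨i, rfl⟩
  · exact Set.mem_insert _ _
  · exact Set.mem_insert_of_mem _ ⟨(i : Fin (L.b j)), (congrFun hφt i).symm⟩

include T in
/-- A moving element keeps moving. -/
theorem moving_laur (htr : trdegSym (L.b j) Q = trdegSym (L.b j) P₁) (hmov : Moving L j P₁) :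
    Moving L j Q := by
  have : CharZero Q.K := Q.charZero
  obtain ⟨μ, hμ⟩ := IsAlgClosed.exists_aeval_eq_zero (AlgebraicClosure Q.K) (minpoly Q.K (Q.q L j))
    (degree_pos_of_irreducible (minpoly_irreducible L j Q)).ne'
  obtain ⟨pl⟩ := T.nonempty_place (AlgebraicClosure Q.K)
  exact ⟨μ, hμ, (laur_setup L T htr hmov pl hμ).1⟩

include T in
/-- Classes do not grow, and where they keep their size related residues have related lifts. -/
theorem clsSize_laur_le (htr : trdegSym (L.b j) Q = trdegSym (L.b j) P₁) (hmov : Moving L j P₁) :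
    clsSize L j Q ≤ clsSize L j P₁ := by
  have : CharZero Q.K := Q.charZero
  obtain ⟨μ, hμ⟩ := IsAlgClosed.exists_aeval_eq_zero (AlgebraicClosure Q.K) (minpoly Q.K (Q.q L j))
    (degree_pos_of_irreducible (minpoly_irreducible L j Q)).ne'
  obtain ⟨pl⟩ := T.nonempty_place (AlgebraicClosure Q.K)
  obtain ⟨hμO, hroot⟩ := pl.root_res L j hμ
  rw [← ncard_depRoots L j Q hμ, ← ncard_depRoots L j P₁ hroot]
  classical
  let r : AlgebraicClosure Q.K → pl.κ := fun x => if h : x ∈ pl.O then pl.φ ⟨x, h⟩ else 0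
  refine Set.ncard_le_ncard_of_injOn r (fun ν hν => ?_) (fun ν hν ν' hν' heq => ?_)
    (depRoots_finite _ _ _)
  · obtain ⟨hνO, hνroot⟩ := pl.root_res L j (mem_rootSet.1 hν.1).2
    simp only [r, dif_pos hνO]
    exact ⟨mem_rootSet.2 ⟨minpoly.ne_zero (Algebra.IsIntegral.isIntegral _), hνroot⟩,
      ((laur_setup L T htr hmov pl hμ).2 hμO ν hνO (mem_rootSet.1 hν.1).2 hν.2).2.1⟩
  · obtain ⟨hνO, -⟩ := pl.root_res L j (mem_rootSet.1 hν.1).2
    obtain ⟨hν'O, -⟩ := pl.root_res L j (mem_rootSet.1 hν'.1).2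
    simp only [r, dif_pos hνO, dif_pos hν'O] at heq
    have hrν : aeval ν (minpoly Q.K (Q.q L j)) = 0 := (mem_rootSet.1 hν.1).2
    have hrν' : aeval ν' (minpoly Q.K (Q.q L j)) = 0 := (mem_rootSet.1 hν'.1).2
    refine (((laur_setup L T htr hmov pl hrν).2 hνO ν' hν'O hrν' ?_).2.2 heq.symm).symm
    refine IsAlgebraic.adjoin_of_forall_isAlgebraic (fun x hx => ?_) hν'.2
    rcases hx.1 with rfl | hx1
    · exact ((laur_setup L T htr hmov pl hμ).2 hμO ν hνO hrν hν.2).1
    · exact absurd (Set.mem_insert_of_mem _ hx1) hx.2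

end Laur

/-- Along a step keeping the transcendence degree a moving element keeps moving and its classes do not grow. -/
theorem moving_and_clsSize_le_of_step {j : ℕ} (h : Step P Q)
    (htr : trdegSym (L.b j) Q = trdegSym (L.b j) P) (hmov : Moving L j P) :
    Moving L j Q ∧ clsSize L j Q ≤ clsSize L j P := by
  obtain ⟨P₁, ⟨E⟩, ⟨T⟩⟩ := h
  have h1 : trdegSym (L.b j) P ≤ trdegSym (L.b j) P₁ := by
    obtain ⟨s, hs, hi⟩ := exists_basis (L.b j) P
    refine hs ▸ card_le_trdegSym (s := s) ?_
    have := hi.map' (f := RingHom.toRatAlgHom E.iK) E.iK.injective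
    simpa [Function.comp_def, E.c_eq] using this
  have h2 : trdegSym (L.b j) P₁ ≤ trdegSym (L.b j) Q :=
    trdegSym_le_of_step ⟨P₁, ⟨P₁.extRefl⟩, ⟨T⟩⟩
  have htr' : trdegSym (L.b j) Q = trdegSym (L.b j) P₁ := le_antisymm (htr ▸ h1) h2
  have hmov' := moving_ext L E j hmov
  exact ⟨moving_laur L T htr' hmov', (clsSize_laur_le L T htr' hmov').trans_eq (clsSize_ext L E j)⟩

end Minimise

end

end Vale.Agent.P199
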