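import Vale.Agent.P199.Minimise.Rigid
import Vale.Agent.P199.Lift.DeformRows
import Vale.Agent.P199.Stage.NewRow

/-!
P199, minimisation: the deformed rows along an arc. The number of identities does not grow, and if it stays the same then
the differential at order one stays in the range at order zero.
-/

namespace Vale.Agent.P199

open Module SkewLaurent LaurentAlg

noncomputable section

namespace Rows

variable {L : Listing} {n : ℕ} {P : Pt} (r : Rows L n P)

/-- The linked parts of the row differentials, as a map into the powers of `D`. -/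
def Jv : Amb P →ₗ[P.K] (Fin n → P.D) :=
  LinearMap.pi fun j => (r.proj j).comp ((P.dEq L (L.b n) j).comp (LinearMap.inl P.K _ _))

theorem Jv_apply (b : Amb P) (j : Fin n) : r.Jv b j = r.proj j (P.dEq L (L.b n) j (b, 0)) := rfl

theorem finrank_range_Jv : finrank P.K (LinearMap.range r.Jv) = finrank P.K (LinearMap.range r.J) := by
  let ι : ((j : Fin n) → r.W j) →ₗ[P.K] (Fin n → P.D) :=
    LinearMap.pi fun j => (r.W j).subtype.comp (LinearMap.proj j)
  have hι : Function.Injective ι := fun x y h => funext fun j => Subtype.ext (congrFun h j)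
  rw [show r.Jv = ι.comp r.J from rfl, LinearMap.range_comp]
  exact (Submodule.equivMapOfInjective ι hι _).finrank_eq.symm

theorem corank_add_range :
    r.corank + finrank P.K (LinearMap.range r.J) = finrank P.K ((j : Fin n) → r.W j) := by
  rw [corank, Y, add_comm, Subspace.finrank_add_finrank_dualAnnihilator_eq]

end Rows

namespace Minimise

variable {L : Listing} {n : ℕ} {P : Pt}

/-- The deformed rows of an arc have no more identities, and as many only if order one stays in the range. -/
theorem deform_corank (r : Rows L n P) (T : LaurData P)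
    (hfix : ∀ u ∈ r.T, ∀ j : Fin n, P.dEq L (L.b n) j (u, 0) = 0)
    (hdeg : ∀ j < n, finrank T.pt.K (T.pt.scalars L j) ≤ finrank P.K (P.scalars L j)) :
    (T.deform L r hdeg).corank ≤ r.corank ∧
      ((T.deform L r hdeg).corank = r.corank → r.OrderOne T.ser) := by
  let _ := T.alg
  have halg : ∀ z, algebraMap (LaurentSeries P.K) (SkewLaurent (1 : RingAut P.D)) z =
      laurentScalarHom z := fun _ => rfl
  have : FiniteDimensional (LaurentSeries P.K) (SkewLaurent (1 : RingAut P.D)) :=
    finiteDimensional_laurent halg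
  set r' := T.deform L r hdeg with hr'
  let f : (Bool → SkewLaurent (1 : RingAut P.D)) →ₗ[LaurentSeries P.K]
      (Fin n → SkewLaurent (1 : RingAut P.D)) := r'.Jv
  let S : Submodule (LaurentSeries P.K) (Fin n → SkewLaurent (1 : RingAut P.D)) := LinearMap.range f
  have hS : finrank (LaurentSeries P.K) S = finrank T.pt.K (LinearMap.range r'.J) :=
    Eq.trans (by rfl) r'.finrank_range_Jv
  -- constant directions
  let cb : Rows.Amb P → Rows.Amb T.pt := fun b a => T.ofS (C 1 (b a))
  have hdir : ∀ (b : Rows.Amb P) z, T.pt.dirVal (N := L.b n) (cb b, 0) z =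
      T.ofS (psE (PowerSeries.C (P.dirVal (N := L.b n) (b, 0) z))) := by
    intro b z
    cases z with
    | inl a =>
      refine ext_cf (D := P.D) fun m => ?_
      show cf (C 1 (b a)) m = cf (psE (PowerSeries.C (b a))) m
      rcases lt_or_ge m 0 with hm | hm
      · rw [cf_C, if_neg hm.ne, Conj.cf_psE_neg _ hm]
      · obtain ⟨k, rfl⟩ := Int.eq_ofNat_of_zero_le hm
        rw [cf_C, cf_psE, PowerSeries.coeff_C]
        simp
    | inr i =>
      have h1 : T.pt.dirVal (N := L.b n) (cb b, 0) (Sum.inr i) = 0 := by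
        by_cases hi : i < L.b n <;> simp [Pt.dirVal, hi]
      have h2 : P.dirVal (N := L.b n) (b, 0) (Sum.inr i) = 0 := by
        by_cases hi : i < L.b n <;> simp [Pt.dirVal, hi]
      rw [h1, h2, map_zero, map_zero]
      rfl
  have hdEq : ∀ (b : Rows.Amb P) (j : Fin n), T.toS (T.pt.dEq L (L.b n) j (cb b, 0)) =
      psE (Poly.d1 T.ser (fun z => PowerSeries.C (P.dirVal (N := L.b n) (b, 0) z)) (L.eqn j)) := by
    intro b j
    have h := Poly.map_d1 T.ser (fun z => PowerSeries.C (P.dirVal (N := L.b n) (b, 0) z))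
      (psE (D := P.D)) 1 (fun a => by rw [mul_one, one_mul]) (L.eqn j)
    simp only [mul_one] at h
    rw [h]
    show T.toS (Poly.d1 T.pt.val (T.pt.dirVal (cb b, 0)) (L.eqn j)) = _
    rw [funext (hdir b), funext T.psE_ser]
    rfl
  have hint : ∀ b, LeadE.IntV (fun j => T.toS (r'.Jv (cb b) j)) ∧
      LeadE.res 0 (fun j => T.toS (r'.Jv (cb b) j)) = r.Jv b ∧
      (r.Jv b = 0 → (∀ j : Fin n, P.dEq L (L.b n) j (b, 0) = 0) →
        LeadE.res 1 (fun j => T.toS (r'.Jv (cb b) j)) = fun j => (r.Jser T.ser 1 b j : P.D)) := by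
    intro b
    have hj : ∀ j, T.toS (r'.Jv (cb b) j) = Conj.conj halg (T.gen L j) (T.gen_const L j) (r.proj j)
        (psE (Poly.d1 T.ser (fun z => PowerSeries.C (P.dirVal (N := L.b n) (b, 0) z)) (L.eqn j))) := by
      intro j
      rw [← hdEq]
      rfl
    have hc := fun j : Fin n => Conj.conj_coeffs halg (T.gen L j) (T.gen_const L j) (r.proj j)
      (a := psE (Poly.d1 T.ser (fun z => PowerSeries.C (P.dirVal (N := L.b n) (b, 0) z)) (L.eqn j)))
      fun m hm => Conj.cf_psE_neg _ hm
    have h0 : ∀ j : Fin n, cf (psE (Poly.d1 T.ser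
        (fun z => PowerSeries.C (P.dirVal (N := L.b n) (b, 0) z)) (L.eqn j))) 0 =
        P.dEq L (L.b n) j (b, 0) := fun j => by
      rw [show (0 : ℤ) = ((0 : ℕ) : ℤ) from rfl, cf_psE, (Poly.coeff_d1_ser T.ser _ _).1, T.cf_zero_ser]
      rfl
    refine ⟨fun j m hm => ?_, funext fun j => ?_, fun _ hz => funext fun j => ?_⟩
    · show cf (T.toS (r'.Jv (cb b) j)) m = 0
      rw [hj]
      exact (hc j).1 m hm
    · show cf (T.toS (r'.Jv (cb b) j)) 0 = _
      rw [hj, (hc j).2.1, h0]
      rfl
    · show cf (T.toS (r'.Jv (cb b) j)) 1 = _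
      rw [hj, (hc j).2.2 (by rw [h0, hz]), show (1 : ℤ) = ((1 : ℕ) : ℤ) from rfl, cf_psE]
      rfl
  have hmem : ∀ b, (fun j => T.toS (r'.Jv (cb b) j)) ∈ S := fun b => LinearMap.mem_range.2 ⟨cb b, rfl⟩
  have hle : LinearMap.range r.Jv ≤ LeadE.lead halg S := by
    rintro _ ⟨b, rfl⟩
    exact ⟨_, hmem b, (hint b).1, (hint b).2.1⟩
  have hfin : finrank P.K (LeadE.lead halg S) = finrank T.pt.K (LinearMap.range r'.J) :=
    (LeadE.finrank_lead halg S).trans hS
  have hW : finrank T.pt.K ((j : Fin n) → r'.W j) = finrank P.K ((j : Fin n) → r.W j) := by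
    rw [Module.finrank_pi_fintype, Module.finrank_pi_fintype]
    exact Finset.sum_congr rfl fun j _ =>
      Conj.finrank_movedSpan halg (T.gen L j) (T.gen_const L j) (r.W j)
  have h1 := r.corank_add_range
  have h2 := r'.corank_add_range
  have h3 := Submodule.finrank_mono hle
  rw [hfin, r.finrank_range_Jv] at h3
  refine ⟨by omega, fun heq u hu => ?_⟩
  have hEq : LinearMap.range r.Jv = LeadE.lead halg S :=
    Submodule.eq_of_le_of_finrank_le hle (by rw [hfin, r.finrank_range_Jv]; omega)
  have hu0 : r.Jv u = 0 := funext fun j => congrArg Subtype.val (congrFun hu j)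
  obtain ⟨hi, hres0, hres1⟩ := hint u
  have hl := LeadE.res_one_mem_lead halg (hmem u) hi (hres0.trans hu0)
  rw [hres1 hu0 (hfix u hu), ← hEq] at hl
  obtain ⟨b, hb⟩ := hl
  exact ⟨b, funext fun j => Subtype.ext (congrFun hb j)⟩

theorem ser_data (X : ℕ → Bool → P.D) (Cs : ℕ → ℕ → P.K) (hX : X 0 = P.xy) (hC : Cs 0 = P.c) :
    (SeriesPoint.data X Cs hX hC).ser = SeriesPoint.ser X Cs := by
  funext z
  refine PowerSeries.ext fun m => ?_
  rw [LaurData.ser, PowerSeries.coeff_mk]
  show cf ((SeriesPoint.data X Cs hX hC).pt.val z) m = _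
  rw [SeriesPoint.val_data]
  exact cf_psE _ _

/-- A solved row has scalars of dimension at most its degree. -/
theorem finrank_scalars_le (Q : Pt) {j : ℕ} (h : Poly.ev Q.val (L.eqn j) = 0) :
    finrank Q.K (Q.scalars L j) ≤ L.e j := by
  refine (Submodule.finrank_mono (Q.scalars_le_span L j h)).trans ?_
  exact (finrank_range_le_card _).trans_eq (Fintype.card_fin _)

/-- The rows on a solved arc: tight rows of the right degrees deform, the number of identities does not grow, and
if it stays then order one stays in the range. -/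
theorem exists_arcRows (r : Rows L n P) (ht : r.Tight)
    (he : ∀ j < n, L.e j ≤ finrank P.K (P.scalars L j))
    (X : ℕ → Bool → P.D) (Cs : ℕ → ℕ → P.K) (hX : X 0 = P.xy) (hC : Cs 0 = P.c)
    (hQ : (SeriesPoint.data X Cs hX hC).pt.Solves L n) :
    ∃ hdeg, ((SeriesPoint.data X Cs hX hC).deform L r hdeg).corank ≤ r.corank ∧
      (((SeriesPoint.data X Cs hX hC).deform L r hdeg).corank = r.corank →
        r.OrderOne (SeriesPoint.ser X Cs)) := by
  refine ⟨fun j hj => (finrank_scalars_le _ (hQ j hj)).trans (he j hj), ?_⟩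
  rw [← ser_data X Cs hX hC]
  exact deform_corank r _ ht.fixed _

end Minimise

end

end Vale.Agent.P199
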