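import Vale.Agent.P199.Field.LaurResidue
import Vale.Agent.P199.Field.Trdeg

/-!
P199, minimisation: descendants, the transcendence degree of the symbols, and descendants on which natural number
invariants are constant.
-/

namespace Vale.Agent.P199

open Vale.P199.Fld Relation

noncomputable section

/-- A point with its rows. -/
structure Stg (L : Listing) (n : ℕ) where
  /-- The point. -/
  P : Pt
  /-- The rows. -/
  rows : Rows L n P

namespace Minimise

section Abstract

variable {α : Type*} (R : α → α → Prop)

/-- A natural number that does not grow along edges is constant below some descendant. -/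
theorem exists_const (f : α → ℕ) (a : α)
    (hmono : ∀ b c, ReflTransGen R a b → R b c → f c ≤ f b) :
    ∃ b, ReflTransGen R a b ∧ ∀ c, ReflTransGen R b c → f c = f b := by
  classical
  have hex : ∃ m b, ReflTransGen R a b ∧ f b = m := ⟨_, a, .refl, rfl⟩
  obtain ⟨b, hb, hbm⟩ := Nat.find_spec hex
  refine ⟨b, hb, fun c hc => ?_⟩
  have hle : f c ≤ f b := by
    induction hc with
    | refl => exact le_rfl
    | tail h1 h2 ih => exact (hmono _ _ (hb.trans h1) h2).trans ih
  exact le_antisymm hle (hbm ▸ Nat.find_min' hex ⟨c, hb.trans hc, rfl⟩)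

/-- Invariants in order of priority: each need only be monotone where the earlier ones are constant. -/
theorem exists_stable {k : ℕ} (f : Fin k → α → ℕ) (a : α)
    (hmono : ∀ i b c, ReflTransGen R a b →
      (∀ d, ReflTransGen R b d → ∀ j < i, f j d = f j b) → R b c → f i c ≤ f i b) :
    ∃ b, ReflTransGen R a b ∧ ∀ c, ReflTransGen R b c → ∀ i, f i c = f i b := by
  induction k with
  | zero => exact ⟨a, .refl, fun _ _ i => i.elim0⟩
  | succ k ih =>
    obtain ⟨b, hab, hb⟩ := ih (fun i => f i.castSucc) fun i b c hb hd =>
      hmono i.castSucc b c hb fun d hd' j hj => by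
        have hjk : (j : ℕ) < k := lt_trans (show (j : ℕ) < (i : ℕ) from hj) i.2
        exact hd d hd' ⟨j, hjk⟩ (by simpa [Fin.lt_def] using hj)
    obtain ⟨b', hbb', hb'⟩ := exists_const R (f (Fin.last k)) b fun c d hc hd =>
      hmono (Fin.last k) c d (hab.trans hc) (fun e he j hj => by
        have h1 := hb c hc ⟨j, hj⟩
        have h2 := hb e (hc.trans he) ⟨j, hj⟩
        exact h2.trans h1.symm) hd
    refine ⟨b', hab.trans hbb', fun c hc i => ?_⟩
    induction i using Fin.lastCases with
    | last => exact hb' c hc
    | cast i => rw [hb c (hbb'.trans hc) i, hb b' hbb' i]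

end Abstract

/-- The transcendence degree of the first `N` symbols, as the dimension of their derivation images. -/
def trdegSym (N : ℕ) (P : Pt) : ℕ :=
  Module.finrank P.K (derImage ℚ fun i : Fin N => P.c i)

theorem trdegSym_le (N : ℕ) (P : Pt) : trdegSym N P ≤ N :=
  (Submodule.finrank_le _).trans_eq (Module.finrank_fin_fun P.K)

/-- An independent family of symbols bounds the transcendence degree from below. -/
theorem card_le_trdegSym {N : ℕ} {P : Pt} {s : Finset (Fin N)}
    (h : AlgebraicIndependent ℚ fun i : s => P.c (i : Fin N)) : s.card ≤ trdegSym N P :=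
  card_le_finrank_derImage (c := fun i : Fin N => P.c i) h

/-- Independent symbols of the size of the transcendence degree. -/
theorem exists_basis (N : ℕ) (P : Pt) : ∃ s : Finset (Fin N), s.card = trdegSym N P ∧
    AlgebraicIndependent ℚ fun i : s => P.c (i : Fin N) := by
  obtain ⟨s, h1, h2, -⟩ := exists_basis_of_derImage (k := ℚ) fun i : Fin N => P.c i
  exact ⟨s, h1, h2⟩

/-- Along a step the transcendence degree does not drop. -/
theorem trdegSym_le_of_step {N : ℕ} {P Q : Pt} (h : Step P Q) : trdegSym N P ≤ trdegSym N Q := by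
  obtain ⟨P₁, ⟨E⟩, ⟨T⟩⟩ := h
  obtain ⟨s, hs, hi⟩ := exists_basis N P
  exact hs ▸ card_le_trdegSym (step_independent E T (fun i : s => ((i : Fin N) : ℕ)) hi)

/-- A largest independent family spans algebraically. -/
theorem isAlgebraic_of_card_eq {N : ℕ} {P : Pt} {s : Finset (Fin N)}
    (h : AlgebraicIndependent ℚ fun i : s => P.c (i : Fin N)) (hc : s.card = trdegSym N P)
    (i : Fin N) : IsAlgebraic (IntermediateField.adjoin ℚ ((fun j : Fin N => P.c j) '' s)) (P.c i) := by
  classical
  by_cases hi : i ∈ s
  · exact isAlgebraic_algebraMap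
      (⟨P.c i, IntermediateField.subset_adjoin ℚ _ ⟨i, hi, rfl⟩⟩ :
        IntermediateField.adjoin ℚ ((fun j : Fin N => P.c j) '' s))
  by_contra hn
  have hnew : AlgebraicIndepOn ℚ (fun j : Fin N => P.c j) (insert i (s : Set (Fin N))) :=
    (AlgebraicIndepOn.insert_iff (by simpa using hi)).2 ⟨h, fun h' => hn
      (IntermediateField.isAlgebraic_adjoin_iff.2 h')⟩
  rw [← Finset.coe_insert] at hnew
  have := card_le_trdegSym hnew
  rw [Finset.card_insert_of_notMem hi] at this
  omega

variable {L : Listing} {n : ℕ} {R : Stg L n → Stg L n → Prop}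
  (hR : ∀ s t, R s t → Step s.P t.P)
include hR

theorem trdegSym_le_of_desc {N : ℕ} {s t : Stg L n} (h : ReflTransGen R s t) :
    trdegSym N s.P ≤ trdegSym N t.P := by
  induction h with
  | refl => exact le_rfl
  | tail _ h2 ih => exact ih.trans (trdegSym_le_of_step (hR _ _ h2))

/-- Independent symbols stay independent on descendants. -/
theorem independent_of_desc {s t : Stg L n} (h : ReflTransGen R s t) {ι : Type} (f : ι → ℕ)
    (hi : AlgebraicIndependent ℚ fun i => s.P.c (f i)) :
    AlgebraicIndependent ℚ fun i => t.P.c (f i) := by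
  induction h with
  | refl => exact hi
  | tail _ h2 ih =>
    obtain ⟨P₁, ⟨E⟩, ⟨T⟩⟩ := hR _ _ h2
    exact step_independent E T f ih

/-- Where the transcendence degree is constant, a basis of the symbols stays one. -/
theorem basis_of_desc {N : ℕ} {s t : Stg L n} (h : ReflTransGen R s t)
    (hc : trdegSym N t.P = trdegSym N s.P) {b : Finset (Fin N)}
    (hb : AlgebraicIndependent ℚ fun i : b => s.P.c (i : Fin N)) (hcard : b.card = trdegSym N s.P) :
    AlgebraicIndependent ℚ (fun i : b => t.P.c (i : Fin N)) ∧
      ∀ i : Fin N, IsAlgebraic (IntermediateField.adjoin ℚ ((fun j : Fin N => t.P.c j) '' b))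
        (t.P.c i) := by
  have hi := independent_of_desc hR h (fun i : b => ((i : Fin N) : ℕ)) hb
  exact ⟨hi, isAlgebraic_of_card_eq hi (hcard.trans hc.symm)⟩

end Minimise

end

end Vale.Agent.P199
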