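import Vale.Agent.P199.Minimise.Arc
import Vale.Agent.P199.Stage.Generation
import Vale.Agent.P199.Valued

/-!
P199, minimisation: residues of elements along a step. Independence of residues lifts, so the degrees of the elements of
the rows do not drop along steps, and along arcs their multiplicities do not grow.
-/

namespace Vale.Agent.P199

open Module LaurentAlg

noncomputable section

variable {P P₁ Q : Pt}

namespace Laur

variable (h : Laur P₁ Q)

/-- A relation between series over the Laurent field has an integral form with a nonzero constant term. -/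
theorem exists_relation {ι : Type} [Fintype ι] (p : ι → PowerSeries P₁.D)
    (hdep : ¬LinearIndependent Q.K fun i => h.emb (p i)) :
    ∃ z : ι → PowerSeries P₁.K, (∃ k, PowerSeries.constantCoeff (z k) ≠ 0) ∧
      ∑ i, PowerSeries.map (algebraMap P₁.K P₁.D) (z i) * p i = 0 := by
  rw [Fintype.not_linearIndependent_iff] at hdep
  obtain ⟨g, hg, i₀, hi₀⟩ := hdep
  set v : ι → LaurentSeries P₁.K := fun i => h.eK.symm (g i)
  have hv : v ≠ 0 := fun e => hi₀ (by simpa [v] using congrFun e i₀)
  obtain ⟨z, hz, k, hk⟩ := Vale.P199.Valued.exists_normalised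
    (S := Submodule.span (LaurentSeries P₁.K) ({v} : Set (ι → LaurentSeries P₁.K)))
    (by simpa using hv)
  obtain ⟨t, ht⟩ := Submodule.mem_span_singleton.1 hz
  refine ⟨z, ⟨k, hk⟩, psE_injective (h.eD.injective ?_)⟩
  rw [← emb_apply, ← emb_apply, map_sum, map_zero]
  have e : ∀ i, h.emb (PowerSeries.map (algebraMap P₁.K P₁.D) (z i) * p i) =
      h.eK t • (g i • h.emb (p i)) := fun i => by
    have hti : HahnSeries.ofPowerSeries ℤ P₁.K (z i) = t * h.eK.symm (g i) :=
      (congrFun ht i).symm
    rw [map_mul, emb_apply h (PowerSeries.map _ _), h.eD_scalar, hti, map_mul,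
      RingEquiv.apply_symm_apply, smul_smul, Algebra.smul_def]
  simp only [e, ← Finset.smul_sum, hg, smul_zero]

/-- Series with independent constant terms are independent over the Laurent field. -/
theorem linearIndependent_emb {ι : Type} [Fintype ι] (p : ι → PowerSeries P₁.D)
    (hp : LinearIndependent P₁.K fun i => PowerSeries.constantCoeff (p i)) :
    LinearIndependent Q.K fun i => h.emb (p i) := by
  by_contra hdep
  obtain ⟨z, ⟨k, hk⟩, h0⟩ := h.exists_relation p hdep
  have h1 := congrArg PowerSeries.constantCoeff h0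
  rw [map_sum, map_zero] at h1
  refine hk (Fintype.linearIndependent_iff.1 hp (fun i => PowerSeries.constantCoeff (z i))
    ((Finset.sum_congr rfl fun i _ => ?_).trans h1) k)
  rw [map_mul, Algebra.smul_def]
  congr 1

/-- The value of a word is integral, with the old value as residue. -/
theorem exists_ev (p : Poly) : ∃ f : PowerSeries P₁.D,
    h.emb f = Poly.ev Q.val p ∧ PowerSeries.constantCoeff f = Poly.ev P₁.val p := by
  have hval : ∀ z, ∃ f : PowerSeries P₁.D,
      h.emb f = Q.val z ∧ PowerSeries.constantCoeff f = P₁.val z := by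
    rintro (a | i)
    · exact h.exists_xy a
    · refine ⟨PowerSeries.map (algebraMap P₁.K P₁.D)
        (PowerSeries.mk fun m : ℕ => (h.eK.symm (Q.c i)).coeff m), ?_, ?_⟩
      · rw [emb_apply, h.eD_scalar]
        show _ = algebraMap Q.K Q.D (Q.c i)
        congr 1
        rw [← h.eK.eq_symm_apply]
        ext n
        rcases lt_or_ge n 0 with hn | hn
        · rw [h.c_neg i n hn, HahnSeries.ofPowerSeries_apply, HahnSeries.embDomain_of_notMem_range]
          rintro ⟨m, rfl⟩
          exact absurd hn (not_lt.2 (Int.natCast_nonneg m))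
        · obtain ⟨m, rfl⟩ := Int.eq_ofNat_of_zero_le hn
          rw [HahnSeries.ofPowerSeries_apply_coeff, PowerSeries.coeff_mk]
      · rw [← PowerSeries.coeff_zero_eq_constantCoeff_apply, PowerSeries.coeff_map,
          PowerSeries.coeff_mk, Nat.cast_zero, h.c_zero]
        rfl
  choose f hf hf0 using hval
  refine ⟨Poly.ev f p, ?_, ?_⟩
  · rw [Poly.ev_map h.emb f p, funext hf]
  · rw [Poly.ev_map PowerSeries.constantCoeff f p, funext hf0]

end Laur

/-- Values of words along a base change. -/
theorem Ext.ev_val (E : Ext P P₁) (p : Poly) : E.iD (Poly.ev P.val p) = Poly.ev P₁.val p := by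
  rw [Poly.ev_map E.iD P.val p]
  congr 2
  funext z
  cases z with
  | inl a => exact (E.xy_eq a).symm
  | inr i => show E.iD (algebraMap P.K P.D (P.c i)) = _; rw [E.map_algebraMap, ← E.c_eq]; rfl

/-- Independence lifts along a base change. -/
theorem Ext.linearIndependent_iD (E : Ext P P₁) {ι : Type} [Fintype ι] {v : ι → P.D}
    (hv : LinearIndependent P.K v) : LinearIndependent P₁.K fun i => E.iD (v i) := by
  obtain ⟨k, hk⟩ := E.mon_one
  simpa [Function.comp_def, hk] using
    (E.indep v hv).comp (fun i : ι => (i, k)) fun x y h => (Prod.ext_iff.1 h).1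

namespace Minimise

variable (L : Listing)

/-- The degree of the element of row `j`. -/
def degRow (j : ℕ) (P : Pt) : ℕ := (minpoly P.K (P.q L j)).natDegree

theorem degRow_le_of_indep {j : ℕ} {d : ℕ}
    (h : LinearIndependent P.K fun i : Fin d => P.q L j ^ (i : ℕ)) : d ≤ degRow L j P := by
  by_contra hlt
  rw [not_le] at hlt
  have h0 : ∑ i : Fin d, (minpoly P.K (P.q L j)).coeff (i : ℕ) • P.q L j ^ (i : ℕ) = 0 := by
    rw [Fin.sum_univ_eq_sum_range (fun i => (minpoly P.K (P.q L j)).coeff i • P.q L j ^ i),
      ← Polynomial.aeval_eq_sum_range' hlt]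
    exact minpoly.aeval _ _
  have := Fintype.linearIndependent_iff.1 h _ h0 ⟨degRow L j P, hlt⟩
  have hm : (minpoly P.K (P.q L j)).coeff (degRow L j P) = 1 :=
    (minpoly.monic (Algebra.IsIntegral.isIntegral _)).coeff_natDegree
  simp [hm] at this

/-- Degrees do not drop along a step. -/
theorem degRow_le_of_step {j : ℕ} (h : Step P Q) : degRow L j P ≤ degRow L j Q := by
  obtain ⟨P₁, ⟨E⟩, ⟨T⟩⟩ := h
  refine degRow_le_of_indep L ?_
  have h1 : LinearIndependent P₁.K fun i : Fin (degRow L j P) => E.iD (P.q L j ^ (i : ℕ)) :=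
    E.linearIndependent_iD (linearIndependent_pow (K := P.K) (P.q L j))
  obtain ⟨f, hf, hf0⟩ := T.exists_ev (L.p j)
  have h2 := T.linearIndependent_emb
    (fun i : Fin (degRow L j P) => f ^ (i : ℕ)) (by
      convert h1 using 2 with i
      rw [map_pow, map_pow, hf0, Pt.q, E.ev_val])
  convert h2 using 2 with i
  rw [map_pow, hf]
  rfl

/-- The multiplicity of the element of row `j`: the matrix size over its degree. -/
def mult (j : ℕ) (P : Pt) : ℕ := Nat.sqrt (finrank P.K P.D) / degRow L j P

theorem degRow_pos (j : ℕ) (P : Pt) : 0 < degRow L j P :=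
  minpoly.natDegree_pos (Algebra.IsIntegral.isIntegral _)

/-- A step that keeps the dimension does not raise multiplicities. -/
theorem mult_le_of_step {j : ℕ} (h : Step P Q) (hd : finrank Q.K Q.D = finrank P.K P.D) :
    mult L j Q ≤ mult L j P := by
  rw [mult, hd]
  exact Nat.div_le_div_left (degRow_le_of_step L h) (degRow_pos L j P)

/-- Along an arc multiplicities do not grow. -/
theorem mult_le_of_arc {j : ℕ} (T : LaurData P) : mult L j T.pt ≤ mult L j P :=
  mult_le_of_step L (step_of_laurData T) T.finrank_pt

end Minimise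

end

end Vale.Agent.P199
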