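import Vale.Agent.P199.Minimise.Rigid

/-!
P199, minimisation: below every good stage there is a good descendant on all of whose descendants the number of identities,
the transcendence degree of the symbols and further invariants are constant; its identities alternate and the symbol
parts of its tangents are the derivation images.
-/

namespace Vale.Agent.P199

open Vale.P199.Fld Relation SeriesPoint

noncomputable section

namespace Minimise

variable {L : Listing} {n : ℕ}

/-- The edges between stages, what they keep, and that arcs are edges. -/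
structure Moves (L : Listing) (n : ℕ) where
  /-- The edge relation. -/
  R : Stg L n → Stg L n → Prop
  /-- What is kept. -/
  Good : Stg L n → Prop
  step : ∀ s t, R s t → Step s.P t.P
  good : ∀ s t, R s t → Good s → Good t
  solves : ∀ s, Good s → s.P.Solves L n
  tight : ∀ s, Good s → s.rows.Tight
  deletes : ∀ s, Good s → s.rows.Deletes
  central : ∀ s, Good s → ∀ d : s.P.D, (∀ t, d * t = t * d) → ∃ a, algebraMap s.P.K s.P.D a = d
  corank_le : ∀ s t, R s t → Good s → t.rows.corank ≤ s.rows.corank
  arc : ∀ s, Good s → ∀ (X : ℕ → Bool → s.P.D) (Cs : ℕ → ℕ → s.P.K) (hX : X 0 = s.P.xy)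
    (hC : Cs 0 = s.P.c), (∀ m i, 0 < m → L.b n ≤ i → Cs m i = 0) →
    (data X Cs hX hC).pt.Solves L n → ∃ t, R s t ∧
      trdegSym (L.b n) (data X Cs hX hC).pt ≤ trdegSym (L.b n) t.P ∧
      (t.rows.corank = s.rows.corank → s.rows.OrderOne (ser X Cs))

variable (M : Moves L n)

theorem Moves.good_of_desc {s t : Stg L n} (h : ReflTransGen M.R s t) (hs : M.Good s) : M.Good t := by
  induction h with
  | refl => exact hs
  | tail _ h2 ih => exact M.good _ _ h2 ih

/-- A stage no descendant of which changes the invariants. -/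
structure Moves.Stable (t : Stg L n) : Prop where
  corank_eq : ∀ u, ReflTransGen M.R t u → u.rows.corank = t.rows.corank
  trdeg_eq : ∀ u, ReflTransGen M.R t u → trdegSym (L.b n) u.P = trdegSym (L.b n) t.P

theorem Moves.Stable.desc {t u : Stg L n} (h : M.Stable t) (hu : ReflTransGen M.R t u) :
    M.Stable u :=
  ⟨fun _ hw => (h.corank_eq _ (hu.trans hw)).trans (h.corank_eq _ hu).symm,
    fun _ hw => (h.trdeg_eq _ (hu.trans hw)).trans (h.trdeg_eq _ hu).symm⟩

/-- The identities of a stable stage alternate. -/
theorem Moves.Stable.alternating {t : Stg L n} (h : M.Stable t) (ht : M.Good t) :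
    t.rows.Alternating :=
  alternating_of_orderOne (M.solves t ht) (M.tight t ht) (M.deletes t ht)
    fun X Cs hX hC h0 hQ => by
      obtain ⟨u, hu, -, h1⟩ := M.arc t ht X Cs hX hC h0 hQ
      exact h1 (h.corank_eq u (.single hu))

/-- At a stable stage the symbol parts of the tangents are the derivation images. -/
theorem Moves.Stable.tangents_eq {t : Stg L n} (h : M.Stable t) (ht : M.Good t)
    (hg : ∀ j < n, L.Guarded j) :
    (LinearMap.ker t.rows.Jf).map (LinearMap.snd t.P.K (Bool → t.P.D) (Fin (L.b n) → t.P.K)) =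
      derImage ℚ fun i : Fin (L.b n) => t.P.c i := by
  refine le_antisymm ?_ (derImage_le_tangents L t.P (M.central t ht) t.rows hg (M.solves t ht))
  rintro v ⟨w, hw, rfl⟩
  obtain ⟨X, Cs, hX, hC, -, hC1, h0, -, hQ⟩ :=
    exists_arc (M.solves t ht) (M.tight t ht).surj (M.deletes t ht) w hw
  obtain ⟨u, hu, htr, -⟩ := M.arc t ht X Cs hX hC h0 hQ
  by_contra hc
  obtain ⟨s, hsi, hlt⟩ := exists_larger_independent (data X Cs hX hC).laur (L.b n) (fun hm => hc (by
    convert hm using 1
    funext i
    show w.2 i = _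
    rw [← hC1 i]
    show _ = (HahnSeries.ofPowerSeries ℤ t.P.K (PowerSeries.mk fun m => Cs m i)).coeff ((1 : ℕ) : ℤ)
    rw [HahnSeries.ofPowerSeries_apply_coeff, PowerSeries.coeff_mk]))
  exact absurd (((card_le_trdegSym hsi).trans htr).trans_eq (h.trdeg_eq u (.single hu))) (not_le.2 hlt)

/-- Below every good stage there is a good stable one, with any further invariants constant as well. -/
theorem Moves.exists_stable (s : Stg L n) (hs : M.Good s) {k : ℕ} (f : Fin k → Stg L n → ℕ)
    (hmono : ∀ t, ReflTransGen M.R s t → M.Good t → M.Stable t → ∀ i b c, ReflTransGen M.R t b →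
      (∀ d, ReflTransGen M.R b d → ∀ j < i, f j d = f j b) → M.R b c → f i c ≤ f i b) :
    ∃ t, ReflTransGen M.R s t ∧ M.Good t ∧ M.Stable t ∧
      ∀ u, ReflTransGen M.R t u → ∀ i, f i u = f i t := by
  obtain ⟨t₁, h₁, hc⟩ := exists_const M.R (fun u => u.rows.corank) s fun b c hb h =>
    M.corank_le b c h (M.good_of_desc hb hs)
  obtain ⟨t₂, h₂, hd⟩ := exists_const M.R (fun u => L.b n - trdegSym (L.b n) u.P) t₁
    fun b c _ h => Nat.sub_le_sub_left (trdegSym_le_of_step (M.step b c h)) _
  have hst : M.Stable t₂ := ⟨fun u hu => (hc u (h₂.trans hu)).trans (hc t₂ h₂).symm, fun u hu => by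
    have h := hd u hu
    have := trdegSym_le (L.b n) u.P
    have := trdegSym_le (L.b n) t₂.P
    omega⟩
  obtain ⟨t, h₃, hf⟩ := Minimise.exists_stable M.R f t₂
    (hmono t₂ (h₁.trans h₂) (M.good_of_desc (h₁.trans h₂) hs) hst)
  exact ⟨t, (h₁.trans h₂).trans h₃, M.good_of_desc ((h₁.trans h₂).trans h₃) hs,
    Moves.Stable.desc M hst h₃, hf⟩

end Minimise

end

end Vale.Agent.P199
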