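import Vale.Agent.P199.Minimise.Basic
import Vale.Agent.P199.Minimise.Degree

/-!
P199, minimisation: classes of roots. Two roots of the minimal polynomial of the element of a row are related if the
second is algebraic over the field of the earlier symbols and the first. All classes of a row have one size, which does
not depend on the algebraically closed field that carries the roots.
-/

namespace Vale.Agent.P199

noncomputable section

namespace Minimise

section Roots

variable {K Ω : Type} [Field K] [CharZero K] [Field Ω] [CharZero Ω] [Algebra K Ω] {N : ℕ}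

/-- The roots related to `lam` over the symbols `c`. -/
def depRoots (c : Fin N → K) (g : Polynomial K) (lam : Ω) : Set Ω :=
  {μ | μ ∈ g.rootSet Ω ∧
    IsAlgebraic (Algebra.adjoin ℚ (insert lam (Set.range fun i => algebraMap K Ω (c i)))) μ}

theorem depRoots_finite (c : Fin N → K) (g : Polynomial K) (lam : Ω) : (depRoots c g lam).Finite :=
  (Polynomial.rootSet_finite g Ω).subset fun _ h => h.1

/-- An injective homomorphism preserves and reflects being algebraic over generated algebras. -/
theorem isAlgebraic_map {A B : Type} [Field A] [CharZero A] [Field B] [CharZero B] (σ : A →+* B)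
    (S : Set A) (a : A) :
    IsAlgebraic (Algebra.adjoin ℚ (σ '' S)) (σ a) ↔ IsAlgebraic (Algebra.adjoin ℚ S) a := by
  let τ : A →ₐ[ℚ] B := RingHom.toRatAlgHom σ
  have hmap : (Algebra.adjoin ℚ S).map τ = Algebra.adjoin ℚ (σ '' S) := AlgHom.map_adjoin τ S
  let f : Algebra.adjoin ℚ S →+* Algebra.adjoin ℚ (σ '' S) :=
    (σ.comp (Algebra.adjoin ℚ S).val.toRingHom).codRestrict (Algebra.adjoin ℚ (σ '' S)) fun x => by
      rw [← hmap]
      exact ⟨x, x.2, rfl⟩
  have hf : Function.Surjective f := fun y => by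
    have hy : (y : B) ∈ (Algebra.adjoin ℚ S).map τ := by rw [hmap]; exact y.2
    obtain ⟨x, hx, hxy⟩ := hy
    exact ⟨⟨x, hx⟩, Subtype.ext hxy⟩
  have hfi : Function.Injective f := fun x y h => Subtype.ext (σ.injective (congrArg Subtype.val h))
  exact ⟨fun h => h.of_ringHom_of_comp_eq f σ hf σ.injective (RingHom.ext fun _ => rfl),
    fun h => h.ringHom_of_comp_eq f σ hfi (RingHom.ext fun _ => rfl)⟩

omit [CharZero K] in
/-- Related roots are transported by homomorphisms over `K`. -/
theorem depRoots_image {Ω' : Type} [Field Ω'] [CharZero Ω'] [Algebra K Ω'] (σ : Ω →ₐ[K] Ω')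
    (c : Fin N → K) (g : Polynomial K) (hg : ∀ μ ∈ g.rootSet Ω', ∃ ν, σ ν = μ) (lam : Ω) :
    σ '' depRoots c g lam = depRoots c g (σ lam) := by
  have hS : σ.toRingHom '' insert lam (Set.range fun i => algebraMap K Ω (c i)) =
      insert (σ lam) (Set.range fun i => algebraMap K Ω' (c i)) := by
    rw [Set.image_insert_eq, ← Set.range_comp]
    congr 2
    funext i
    exact σ.commutes (c i)
  have hroot : ∀ ν, σ ν ∈ g.rootSet Ω' ↔ ν ∈ g.rootSet Ω := fun ν => by
    simp [Polynomial.mem_rootSet, Polynomial.aeval_algHom_apply]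
  have halg : ∀ ν, IsAlgebraic (Algebra.adjoin ℚ (insert (σ lam) (Set.range fun i => algebraMap K Ω' (c i))))
      (σ ν) ↔ IsAlgebraic (Algebra.adjoin ℚ (insert lam (Set.range fun i => algebraMap K Ω (c i)))) ν := fun ν => by
    have h := isAlgebraic_map σ.toRingHom (insert lam (Set.range fun i => algebraMap K Ω (c i))) ν
    rwa [hS] at h
  ext μ
  constructor
  · rintro ⟨ν, ⟨hν, hν'⟩, rfl⟩
    exact ⟨(hroot ν).2 hν, (halg ν).2 hν'⟩
  · rintro ⟨hμ, hμ'⟩
    obtain ⟨ν, rfl⟩ := hg μ hμ
    exact ⟨ν, ⟨(hroot ν).1 hμ, (halg ν).1 hμ'⟩, rfl⟩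

end Roots

variable (L : Listing)

/-- The symbols of the rows before `j`. -/
def symb (j : ℕ) (P : Pt) : Fin (L.b j) → P.K := fun i => P.c i

/-- The common size of the classes of the roots of row `j`. -/
def clsSize (j : ℕ) (P : Pt) : ℕ :=
  sInf {k | ∃ lam : AlgebraicClosure P.K, Polynomial.aeval lam (minpoly P.K (P.q L j)) = 0 ∧
    (depRoots (symb L j P) (minpoly P.K (P.q L j)) lam).ncard = k}

theorem minpoly_irreducible (j : ℕ) (P : Pt) : Irreducible (minpoly P.K (P.q L j)) :=
  minpoly.irreducible (Algebra.IsIntegral.isIntegral _)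

/-- In every algebraically closed field the class of every root has the size `clsSize`. -/
theorem ncard_depRoots (j : ℕ) (P : Pt) {Ω : Type} [Field Ω] [CharZero Ω] [Algebra P.K Ω]
    [IsAlgClosed Ω] {lam : Ω} (hlam : Polynomial.aeval lam (minpoly P.K (P.q L j)) = 0) :
    (depRoots (symb L j P) (minpoly P.K (P.q L j)) lam).ncard = clsSize L j P := by
  classical
  set g := minpoly P.K (P.q L j) with hg
  set c := symb L j P
  have hm : g.Monic := minpoly.monic (Algebra.IsIntegral.isIntegral _)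
  have hirr : Irreducible g := minpoly_irreducible L j P
  let σ : AlgebraicClosure P.K →ₐ[P.K] Ω := IsAlgClosed.lift
  have hsplit : (g.map (algebraMap P.K (AlgebraicClosure P.K))).Splits := IsAlgClosed.splits _
  have hsurj : ∀ μ ∈ g.rootSet Ω, ∃ ν, σ ν = μ := fun μ hμ => by
    rw [← hsplit.image_rootSet σ] at hμ
    obtain ⟨ν, -, hν⟩ := hμ
    exact ⟨ν, hν⟩
  obtain ⟨lam₀, rfl⟩ := hsurj lam (Polynomial.mem_rootSet.2 ⟨hm.ne_zero, hlam⟩)
  rw [← depRoots_image σ c g hsurj lam₀,
    Set.ncard_image_of_injective _ (f := ⇑σ) (RingHom.injective σ.toRingHom)]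
  rw [Polynomial.aeval_algHom_apply, map_eq_zero] at hlam
  have hne : {k | ∃ lam : AlgebraicClosure P.K, Polynomial.aeval lam g = 0 ∧
      (depRoots c g lam).ncard = k}.Nonempty := ⟨_, lam₀, hlam, rfl⟩
  obtain ⟨lam₁, h₁, hk⟩ := Nat.sInf_mem hne
  rw [show clsSize L j P = _ from hk.symm]
  -- conjugate the two roots
  have hmin : g = minpoly P.K lam₁ := minpoly.eq_of_irreducible_of_monic hirr h₁ hm
  obtain ⟨τ, hτ⟩ := minpoly.exists_algEquiv_of_root' (x := lam₀) (y := lam₁)
    (Algebra.IsAlgebraic.isAlgebraic lam₁) (hmin ▸ hlam)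
  rw [← hτ]
  rw [show (τ lam₁ : AlgebraicClosure P.K) = τ.toAlgHom lam₁ from rfl,
    ← depRoots_image τ.toAlgHom c g (fun μ _ => ⟨τ.symm μ, τ.apply_symm_apply μ⟩) lam₁,
    Set.ncard_image_of_injective _ (f := ⇑τ.toAlgHom) τ.injective]

/-- A descendant with a smallest value of an invariant: all its descendants have at least that value. -/
theorem exists_min {α : Type*} (R : α → α → Prop) (f : α → ℕ) (a : α) :
    ∃ b, Relation.ReflTransGen R a b ∧ ∀ c, Relation.ReflTransGen R b c → f b ≤ f c := by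
  classical
  have hex : ∃ m b, Relation.ReflTransGen R a b ∧ f b = m := ⟨_, a, .refl, rfl⟩
  obtain ⟨b, hb, hbm⟩ := Nat.find_spec hex
  exact ⟨b, hb, fun c hc => hbm ▸ Nat.find_min' hex ⟨c, hb.trans hc, rfl⟩⟩

/-- The element of row `j` moves: some root is transcendental over the earlier symbols. -/
def Moving (j : ℕ) (P : Pt) : Prop :=
  ∃ lam : AlgebraicClosure P.K, Polynomial.aeval lam (minpoly P.K (P.q L j)) = 0 ∧
    ¬IsAlgebraic (Algebra.adjoin ℚ (Set.range fun i => algebraMap P.K (AlgebraicClosure P.K)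
      (symb L j P i))) lam

/-- Then every root in every algebraically closed field is transcendental. -/
theorem Moving.transcendental {j : ℕ} {P : Pt} (h : Moving L j P) {Ω : Type} [Field Ω] [CharZero Ω]
    [Algebra P.K Ω] [IsAlgClosed Ω] {lam : Ω}
    (hlam : Polynomial.aeval lam (minpoly P.K (P.q L j)) = 0) :
    ¬IsAlgebraic (Algebra.adjoin ℚ (Set.range fun i => algebraMap P.K Ω (symb L j P i))) lam := by
  classical
  obtain ⟨lam₁, h₁, hn⟩ := h
  set g := minpoly P.K (P.q L j)
  have hm : g.Monic := minpoly.monic (Algebra.IsIntegral.isIntegral _)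
  let σ : AlgebraicClosure P.K →ₐ[P.K] Ω := IsAlgClosed.lift
  have hsplit : (g.map (algebraMap P.K (AlgebraicClosure P.K))).Splits := IsAlgClosed.splits _
  have hmem : lam ∈ g.rootSet Ω := Polynomial.mem_rootSet.2 ⟨hm.ne_zero, hlam⟩
  rw [← hsplit.image_rootSet σ] at hmem
  obtain ⟨lam₀, hl₀, rfl⟩ := hmem
  have hmin : g = minpoly P.K lam₁ :=
    minpoly.eq_of_irreducible_of_monic (minpoly_irreducible L j P) h₁ hm
  obtain ⟨τ, hτ⟩ := minpoly.exists_algEquiv_of_root' (x := lam₀) (y := lam₁)
    (Algebra.IsAlgebraic.isAlgebraic lam₁) (hmin ▸ (Polynomial.mem_rootSet.1 hl₀).2)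
  let ρ : AlgebraicClosure P.K →ₐ[P.K] Ω := σ.comp τ.toAlgHom
  have hS : ρ.toRingHom '' Set.range (fun i => algebraMap P.K (AlgebraicClosure P.K) (symb L j P i)) =
      Set.range fun i => algebraMap P.K Ω (symb L j P i) := by
    rw [← Set.range_comp]
    congr 1
    funext i
    exact ρ.commutes _
  intro halg
  refine hn ((isAlgebraic_map ρ.toRingHom _ lam₁).1 ?_)
  rw [hS]
  rwa [show ρ.toRingHom lam₁ = σ lam₀ from congrArg σ hτ]

end Minimise

end

end Vale.Agent.P199
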